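import Vale.Agent.P297.H925.InvPoly
import Vale.Agent.P297.H424.Z3.Asm

/-!
The plane cubic of the general `ℤ/3` Godeaux surface in the letters of the assembly.
-/

open Polynomial

namespace Vale.Agent.P297.H925

open Vale.Agent.P297 Vale.Agent.P297.H288

section Par

variable {R : Type} [CommRing R] [Algebra ℂ R] (P : Par)

/-- The plane cubic with affine point `(B, S₂)` in the unshifted letters. -/
def FV (δ : R) : Fin 10 → R := Fs (δ + 1) δ (rho P δ 1) (rho P δ 0) (rho P δ 3) (rho P δ 2)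

theorem cc_eq' (δ : R) : (![-rho P δ 1, -rho P δ 3, 3 * δ] : Fin 3 → R) = H424.cc P δ := rfl

theorem cc_shift (δ : R) : H80.disc3 (H424.cc P δ) = H80.disc3 (cc P δ) := by
  rw [← cc_eq', ← cc_eq]
  simp only [H80.disc3, Matrix.cons_val]
  ring

theorem tc_FV (δ B S : R) : Z3.tc (FV P δ) B S 1 =
    H80.nrm3 (H424.cc P δ) ![H424.s0 δ B, H424.s1 P δ B, S] +
      H80.disc3 (H424.cc P δ) * ff2 P δ B := by
  have h0 : (3 * (B + (δ + 1) * 1) : R) = H424.s0 δ B := by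
    unfold H424.s0
    ring
  have h1 : -(3 * (δ + 1) * B + (9 * δ ^ 2 + 9 * δ + rho P δ 3 + rho P δ 2) * 1) =
      H424.s1 P δ B := by
    unfold H424.s1 mu rho
    ring
  have h2 : B ^ 3 + 3 * δ * B ^ 2 * 1 - rho P δ 2 * B * 1 ^ 2 - rho P δ 0 * 1 ^ 3 =
      ff2 P δ B := by
    unfold ff2 B2 A2 rho
    ring
  rw [FV, tc_Fs_unshifted, h0, h1, h2, cc_eq']

theorem inv_FV [IsDomain R] [CharZero R] (δ : R) :
    Z3.c4 (FV P δ) = 9 * H80.disc3 (H424.cc P δ) ^ 2 *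
        A4 (δ + 1) (rho P δ 1) (rho P δ 0) (rho P δ 3) (rho P δ 2) ∧
      Z3.c6 (FV P δ) = 27 * H80.disc3 (H424.cc P δ) ^ 3 *
        A6 (δ + 1) (rho P δ 1) (rho P δ 0) (rho P δ 3) (rho P δ 2) := by
  have h := inv_Fs (δ + 1) δ (rho P δ 1) (rho P δ 0) (rho P δ 3) (rho P δ 2)
  rw [cc_eq, ← cc_shift] at h
  exact h

theorem map_FV {S : Type} [CommRing S] [Algebra ℂ S] (σ : R →ₐ[ℂ] S) (δ : R) :
    (fun i ↦ σ (FV P δ i)) = FV P (σ δ) := by
  unfold FV Fs Fk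
  have h := map_shear σ.toRingHom (δ + 1) (3 * (δ + 1) ^ 2)
    (2 * (δ + 1) * (6 * (δ + 1) ^ 2 - 9 * (δ + 1) + rho P δ 3 + rho P δ 2) + 3 * (δ + 1) ^ 3)
    (Fc (6 * (δ + 1) - 3 * (δ + 1) ^ 2 - rho P δ 3)
      (2 * (δ + 1) ^ 3 - 3 * (δ + 1) ^ 2 + rho P δ 3 * (δ + 1) - rho P δ 1)
      (6 * (δ + 1) - 3 * (δ + 1) ^ 2 - rho P δ 2)
      (2 * (δ + 1) ^ 3 - 3 * (δ + 1) ^ 2 + rho P δ 2 * (δ + 1) - rho P δ 0)
      (6 * (δ + 1) ^ 2 - 9 * (δ + 1) + rho P δ 3 + rho P δ 2))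
  refine h.trans ?_
  change shear (σ _) (σ _) (σ _) (fun i ↦ σ _) = _
  congr 1
  · simp only [map_add, map_one]
  · simp only [map_mul, map_add, map_pow, map_ofNat, map_one]
  · simp only [map_mul, map_add, map_sub, map_pow, map_ofNat, map_one, map_rho]
  · funext i
    fin_cases i <;>
      simp [Fc, Dg, map_ofNat, map_rho]

end Par

noncomputable section Poly

variable (P : Par)

/-- The plane cubic over `ℂ[δ]`. -/
def FU : Fin 10 → ℂ[X] := FV P (X : ℂ[X])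

/-- The discriminant over `ℂ[δ]`. -/
def DU : ℂ[X] := H80.disc3 (H424.cc P (X : ℂ[X]))

theorem DU_eq : DU P = DX P := cc_shift P _

theorem c4_FU : Z3.c4 (FU P) = C (-48) * C (1 / 2) ^ 4 * DU P ^ 2 * pX P := by
  rw [DU_eq, ← c4_FX, FU, FX, (inv_FV P _).1, (inv_FP P _).1, cc_shift]

theorem c6_FU : Z3.c6 (FU P) = C (-864) * C (1 / 2) ^ 6 * DU P ^ 3 * qX P := by
  rw [DU_eq, ← c6_FX, FU, FX, (inv_FV P _).2, (inv_FP P _).2, cc_shift]

theorem FU_six : FU P 6 = 1 := rfl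

variable {N : Type} [CommRing N] [Algebra ℂ N]

theorem aeval_FU (δ : N) : (fun i ↦ aeval δ (FU P i)) = FV P δ := by
  have h := map_FV P (aeval δ) (X : ℂ[X])
  rw [aeval_X] at h
  exact h

theorem aeval_DU (δ : N) : aeval δ (DU P) = H80.disc3 (H424.cc P δ) := by
  rw [DU_eq, aeval_DX, cc_shift]

theorem tc_aeval_FU (δ B S : N) : Z3.tc (fun i ↦ aeval δ (FU P i)) B S 1 = 0 ↔
    H80.nrm3 (H424.cc P δ) ![H424.s0 δ B, H424.s1 P δ B, S] =
      -(H80.disc3 (H424.cc P δ) * ff2 P δ B) := by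
  rw [aeval_FU, tc_FV, add_eq_zero_iff_eq_neg]

end Poly

section Field

variable {K N : Type} [Field K] [Algebra ℂ K] [Field N] [Algebra ℂ N] [IsAlgClosed N] [CharZero N]
variable {P : Par}

/-- **The cycle of the curve of a generic datum is constant up to `216`**, from the two relations
and the conditions on the invariants. -/
theorem line_const {m : ℤ} (h4 : Algebra.trdeg ℂ N = 4)
    (hdisc : 4 * pX P ^ 3 + 27 * qX P ^ 2 ≠ 0)
    (hnt : ∀ α β a b : ℂ, ¬ (pX P = C α * (C a * X + C b) ^ 4 ∧ qX P = C β * (C a * X + C b) ^ 6))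
    (hD : DU P ≠ 0) {δ : N} (hδ : Transcendental ℂ δ)
    {x : Fin 4 → K} (hx : H288.IsFF P x) (hR0 : H424.R0 m P x δ) (hR1 : H424.R1 m P x δ)
    {e : N} {w : Fin 3 → N} {B B' : N} {n n' : Fin 3 → N}
    (h : H424.GD P δ e w B n) (h' : H424.GD P δ e w B' n') :
    (216 : ℤ) • (Bsig P x δ B w n - Bsig P x δ B' w n') ∈ H72.Rel m K N :=
  H424.line_const h4 (natDegree_pX P) (natDegree_qX P) hdisc hnt hD
    (C_ne_zero.2 (by norm_num : (1 / 2 : ℂ) ≠ 0)) (by rw [FU_six]; exact one_ne_zero) (c4_FU P)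
    (c6_FU P) hδ (aeval_DU P δ).symm (tc_aeval_FU P δ) hx hR0 hR1 h h'

end Field

end Vale.Agent.P297.H925
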