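import Vale.Agent.P297.H925.Short
import Vale.Agent.P297.H777.Z3Smooth

/-!
The conditions on the eight parameters of the general `ℤ/3` Godeaux surface hold outside a
hypersurface of the parameter space.
-/

open Polynomial

namespace Vale.Agent.P297.H925

open Vale.Agent.P297 Vale.Agent.P297.H288

section Map

variable {R S : Type} [CommRing R] [CommRing S] (σ : R →+* S)

theorem map_A4 (x r1 r2 r3 r4 : R) : σ (A4 x r1 r2 r3 r4) = A4 (σ x) (σ r1) (σ r2) (σ r3) (σ r4) := by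
  rw [← P4_eq, ← P4_eq]
  simp only [P4, map_add, map_sub, map_mul, map_pow, map_ofNat]

theorem map_A6 (x r1 r2 r3 r4 : R) : σ (A6 x r1 r2 r3 r4) = A6 (σ x) (σ r1) (σ r2) (σ r3) (σ r4) := by
  rw [← P6_eq, ← P6_eq]
  simp only [P6, map_add, map_sub, map_mul, map_pow, map_ofNat, map_neg]

end Map

section Wr

variable {R : Type} [CommRing R]

/-- The expression `12 f f'' - 11 f'²`; it vanishes for `f = c (a X + b) ^ 12`. -/
noncomputable def wr (f : R[X]) : R[X] :=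
  12 * f * derivative (derivative f) - 11 * derivative f ^ 2

theorem wr_pow (c a b : R) : wr (C c * (C a * X + C b) ^ 12) = 0 := by
  have h1 : derivative (C c * (C a * X + C b) ^ 12) = C (12 * c * a) * (C a * X + C b) ^ 11 := by
    simp only [derivative_mul, derivative_C, zero_mul, zero_add, derivative_pow, derivative_add,
      derivative_X, mul_one, add_zero, map_mul, map_ofNat, Nat.cast_ofNat]
    ring
  have h2 : derivative (C (12 * c * a) * (C a * X + C b) ^ 11) =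
      C (132 * c * a ^ 2) * (C a * X + C b) ^ 10 := by
    simp only [derivative_mul, derivative_C, zero_mul, zero_add, derivative_pow, derivative_add,
      derivative_X, mul_one, add_zero, map_mul, map_pow, map_ofNat, Nat.cast_ofNat, mul_zero,
      derivative_ofNat]
    ring
  rw [wr, h1, h2]
  simp only [map_mul, map_pow, map_ofNat]
  ring

theorem wr_map {S : Type} [CommRing S] (σ : R →+* S) (f : R[X]) :
    (wr f).map σ = wr (f.map σ) := by
  simp only [wr, Polynomial.map_sub, Polynomial.map_mul, Polynomial.map_pow, derivative_map,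
    Polynomial.map_ofNat]

end Wr

noncomputable section Univ

/-- The polynomials in the eight parameters. -/
abbrev R8 : Type := MvPolynomial (Fin (4 + 4)) ℂ

def rU (i : Fin 4) : R8[X] :=
  C (MvPolynomial.X (Fin.natAdd 4 i)) + C (MvPolynomial.X (Fin.castAdd 4 i)) * X

def pU : R8[X] := -3 * A4 (X + 1) (rU 1) (rU 0) (rU 3) (rU 2)

def qU : R8[X] := -2 * A6 (X + 1) (rU 1) (rU 0) (rU 3) (rU 2)

def dU : R8[X] := 4 * pU ^ 3 + 27 * qU ^ 2

theorem rU_map (z t : Fin 4 → ℂ) (i : Fin 4) :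
    (rU i).map (MvPolynomial.eval (Fin.append z t)) = rho ⟨z, t⟩ X i := by
  simp only [rU, rho, Polynomial.map_add, Polynomial.map_mul, Polynomial.map_C, Polynomial.map_X,
    MvPolynomial.eval_X, Fin.append_right, Fin.append_left]
  rfl

theorem pU_map (z t : Fin 4 → ℂ) :
    pU.map (MvPolynomial.eval (Fin.append z t)) = pX ⟨z, t⟩ := by
  have h := map_A4 (mapRingHom (MvPolynomial.eval (Fin.append z t))) (X + 1) (rU 1) (rU 0) (rU 3)
    (rU 2)
  simp only [coe_mapRingHom, rU_map, Polynomial.map_add, Polynomial.map_X, Polynomial.map_one] at h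
  rw [pU, Polynomial.map_mul, h, Polynomial.map_neg, Polynomial.map_ofNat, pX]

theorem qU_map (z t : Fin 4 → ℂ) :
    qU.map (MvPolynomial.eval (Fin.append z t)) = qX ⟨z, t⟩ := by
  have h := map_A6 (mapRingHom (MvPolynomial.eval (Fin.append z t))) (X + 1) (rU 1) (rU 0) (rU 3)
    (rU 2)
  simp only [coe_mapRingHom, rU_map, Polynomial.map_add, Polynomial.map_X, Polynomial.map_one] at h
  rw [qU, Polynomial.map_mul, h, Polynomial.map_neg, Polynomial.map_ofNat, qX]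

theorem dU_map (z t : Fin 4 → ℂ) : dU.map (MvPolynomial.eval (Fin.append z t)) =
    4 * pX ⟨z, t⟩ ^ 3 + 27 * qX ⟨z, t⟩ ^ 2 := by
  simp only [dU, Polynomial.map_add, Polynomial.map_mul, Polynomial.map_pow, pU_map, qU_map,
    Polynomial.map_ofNat]

/-- The condition on the discriminant. -/
def F3 : R8 := (wr dU).eval 0

theorem eval_F3 (z t : Fin 4 → ℂ) : MvPolynomial.eval (Fin.append z t) F3 =
    (wr (4 * pX ⟨z, t⟩ ^ 3 + 27 * qX ⟨z, t⟩ ^ 2)).eval 0 := by
  rw [← dU_map, ← wr_map, F3, eval_map, Polynomial.eval₂_at_zero]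
  rw [← coeff_zero_eq_eval_zero]

/-- The resultant of `3 u² - z u - z'` and `u³ - t u - t'`, up to a factor. -/
def rs {R : Type} [CommRing R] (z z' t t' : R) : R :=
  3 * (z * z' - 9 * t') ^ 2 + z * (z ^ 2 + 3 * z' - 9 * t) * (z * z' - 9 * t') -
    z' * (z ^ 2 + 3 * z' - 9 * t) ^ 2

theorem rs_eq_zero {z z' t t' u : ℂ} (h1 : 3 * u ^ 2 - z * u - z' = 0)
    (h2 : u ^ 3 - t * u - t' = 0) : rs z z' t t' = 0 := by
  have h3 : (z ^ 2 + 3 * z' - 9 * t) * u + (z * z' - 9 * t') = 0 := by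
    linear_combination 9 * h2 - (3 * u + z) * h1
  have h4 : z * z' - 9 * t' = -((z ^ 2 + 3 * z' - 9 * t) * u) := by linear_combination h3
  rw [rs, h4]
  linear_combination (z ^ 2 + 3 * z' - 9 * t) ^ 2 * h1

def F0 : R8 := rs (MvPolynomial.X (Fin.castAdd 4 3)) (MvPolynomial.X (Fin.castAdd 4 1))
  (MvPolynomial.X (Fin.natAdd 4 3)) (MvPolynomial.X (Fin.natAdd 4 1))

def F2 : R8 := rs (MvPolynomial.X (Fin.castAdd 4 2)) (MvPolynomial.X (Fin.castAdd 4 0))
  (MvPolynomial.X (Fin.natAdd 4 2)) (MvPolynomial.X (Fin.natAdd 4 0))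

theorem eval_F0 (z t : Fin 4 → ℂ) :
    MvPolynomial.eval (Fin.append z t) F0 = rs (z 3) (z 1) (t 3) (t 1) := by
  simp only [F0, rs, map_add, map_sub, map_mul, map_pow, map_ofNat, MvPolynomial.eval_X,
    Fin.append_right, Fin.append_left]

theorem eval_F2 (z t : Fin 4 → ℂ) :
    MvPolynomial.eval (Fin.append z t) F2 = rs (z 2) (z 0) (t 2) (t 0) := by
  simp only [F2, rs, map_add, map_sub, map_mul, map_pow, map_ofNat, MvPolynomial.eval_X,
    Fin.append_right, Fin.append_left]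

theorem F0_ne : F0 ≠ 0 := by
  intro h
  have h1 := eval_F0 0 ![0, 1, 0, 0]
  rw [h, map_zero] at h1
  simp [rs] at h1

theorem F2_ne : F2 ≠ 0 := by
  intro h
  have h1 := eval_F2 0 ![1, 0, 0, 0]
  rw [h, map_zero] at h1
  simp [rs] at h1

theorem pX_member : pX ⟨0, ![0, 0, 3, 0]⟩ =
    C (-19683) * X ^ 4 + C (-34992) * X ^ 3 + C (-21384) * X ^ 2 + C (-3888) * X := by
  have h0 : rho ⟨0, ![0, 0, 3, 0]⟩ (X : ℂ[X]) 0 = 0 := by simp [rho]
  have h1 : rho ⟨0, ![0, 0, 3, 0]⟩ (X : ℂ[X]) 1 = 0 := by simp [rho]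
  have h2 : rho ⟨0, ![0, 0, 3, 0]⟩ (X : ℂ[X]) 2 = 3 := by simp [rho, map_ofNat]
  have h3 : rho ⟨0, ![0, 0, 3, 0]⟩ (X : ℂ[X]) 3 = 0 := by simp [rho]
  rw [pX, h0, h1, h2, h3]
  simp only [A4, A40, A41, A42, A43, C_neg, map_ofNat]
  ring

theorem qX_member : qX ⟨0, ![0, 0, 3, 0]⟩ =
    C (-1062882) * X ^ 6 + C (-2834352) * X ^ 5 + C (-2991816) * X ^ 4 + C (-1481328) * X ^ 3 +
      C (-174960) * X ^ 2 + C 139968 * X + C 46656 := by
  have h0 : rho ⟨0, ![0, 0, 3, 0]⟩ (X : ℂ[X]) 0 = 0 := by simp [rho]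
  have h1 : rho ⟨0, ![0, 0, 3, 0]⟩ (X : ℂ[X]) 1 = 0 := by simp [rho]
  have h2 : rho ⟨0, ![0, 0, 3, 0]⟩ (X : ℂ[X]) 2 = 3 := by simp [rho, map_ofNat]
  have h3 : rho ⟨0, ![0, 0, 3, 0]⟩ (X : ℂ[X]) 3 = 0 := by simp [rho]
  rw [qX, h0, h1, h2, h3]
  simp only [A6, A60, A61, A62, A63, A64, A65, C_neg, map_ofNat]
  ring

theorem F3_ne : F3 ≠ 0 := by
  intro h
  have h1 := eval_F3 0 ![0, 0, 3, 0]
  rw [h, map_zero, pX_member, qX_member] at h1
  simp only [wr, derivative_add, derivative_mul, derivative_pow, derivative_C, derivative_X,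
    derivative_ofNat, eval_add, eval_sub, eval_mul, eval_pow, eval_C, eval_X, eval_ofNat,
    eval_zero, eval_one, Nat.cast_ofNat] at h1
  norm_num at h1

/-- **The conditions hold outside a hypersurface.** -/
theorem exists_poly : ∃ F : MvPolynomial (Fin 8) ℂ, F ≠ 0 ∧ ∀ z t : Fin 4 → ℂ,
    MvPolynomial.eval (Fin.append z t) F ≠ 0 → FreeS ⟨z, t⟩ ∧
      ∀ c a b : ℂ, 4 * pX ⟨z, t⟩ ^ 3 + 27 * qX ⟨z, t⟩ ^ 2 ≠ C c * (C a * X + C b) ^ 12 := by
  refine ⟨F0 * F2 * F3, mul_ne_zero (mul_ne_zero F0_ne F2_ne) F3_ne, fun z t h => ?_⟩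
  have h' : MvPolynomial.eval (Fin.append z t) F0 * MvPolynomial.eval (Fin.append z t) F2 *
      MvPolynomial.eval (Fin.append z t) F3 ≠ 0 := by
    rw [← map_mul, ← map_mul]
    exact h
  rw [eval_F0, eval_F2, eval_F3] at h'
  refine ⟨⟨fun c hc => ?_, fun c hc => ?_⟩, fun c a b he => ?_⟩
  · have h1 : rs (z 3) (z 1) (t 3) (t 1) = 0 := rs_eq_zero hc.1 hc.2
    exact h' (by rw [h1, zero_mul, zero_mul])
  · have h1 : rs (z 2) (z 0) (t 2) (t 0) = 0 := rs_eq_zero hc.1 hc.2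
    exact h' (by rw [h1, mul_zero, zero_mul])
  · exact h' (by rw [he, wr_pow, eval_zero, mul_zero])

end Univ

end Vale.Agent.P297.H925
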