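import Vale.Agent.P297.H925.Gen8
import Vale.Agent.P297.H424.Z3.NonDeg

/-!
The non-degeneracy condition in the form of the final statement holds outside a hypersurface.
-/

open Polynomial

namespace Vale.Agent.P297.H925

open Vale.Agent.P297 Vale.Agent.P297.H288

theorem eval_DX (P : Par) (d : ℂ) : (DX P).eval d = H424.dg P d := by
  have h := aeval_DX (N := ℂ) P d
  rw [coe_aeval_eq_eval] at h
  refine h.trans ?_
  rw [← cc_eq]
  simp only [H80.disc3, Matrix.cons_val, H424.dg, H424.g1, H424.g0, H424.ro, rho]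
  ring

theorem eval_A (P : Par) (d : ℂ) :
    -108 * (Z3.c4 (H424.gam P d) ^ 3 - Z3.c6 (H424.gam P d) ^ 2) =
      729 * H424.dg P d ^ 6 * (4 * (pX P).eval d ^ 3 + 27 * (qX P).eval d ^ 2) := by
  have hD : Dg (H424.g1 P d) (H424.g0 P d) = H424.dg P d := rfl
  have hr : ∀ i, H424.ro P d i = rr P d i := by
    intro i
    simp only [H424.ro, rr, Algebra.algebraMap_self, RingHom.id_apply]
  have e1 : H424.g1 P d = 6 * (d + 1) - 3 * (d + 1) ^ 2 - rr P d 3 := by rw [H424.g1, hr]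
  have e2 : H424.g0 P d = 2 * (d + 1) ^ 3 - 3 * (d + 1) ^ 2 + rr P d 3 * (d + 1) - rr P d 1 := by
    rw [H424.g0, hr, hr]
  have e3 : H424.f1 P d = 6 * (d + 1) - 3 * (d + 1) ^ 2 - rr P d 2 := by rw [H424.f1, hr]
  have e4 : H424.f0 P d = 2 * (d + 1) ^ 3 - 3 * (d + 1) ^ 2 + rr P d 2 * (d + 1) - rr P d 0 := by
    rw [H424.f0, hr, hr]
  have e5 : H424.nu P d = 6 * (d + 1) ^ 2 - 9 * (d + 1) + rr P d 3 + rr P d 2 := by
    rw [H424.nu, hr, hr]
    ring
  have h4 : (pX P).eval d = -3 * P4 (H424.g1 P d) (H424.g0 P d) (H424.f1 P d) (H424.f0 P d)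
      (H424.nu P d) := by
    have h := map_A4 (evalRingHom d) (X + 1) (rho P X 1) (rho P X 0) (rho P X 3) (rho P X 2)
    simp only [coe_evalRingHom, eval_add, eval_X, eval_one, eval_rho] at h
    rw [pX, eval_mul, h, eval_neg, eval_ofNat, ← P4_eq, e1, e2, e3, e4, e5]
  have h6 : (qX P).eval d = -2 * P6 (H424.g1 P d) (H424.g0 P d) (H424.f1 P d) (H424.f0 P d)
      (H424.nu P d) := by
    have h := map_A6 (evalRingHom d) (X + 1) (rho P X 1) (rho P X 0) (rho P X 3) (rho P X 2)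
    simp only [coe_evalRingHom, eval_add, eval_X, eval_one, eval_rho] at h
    rw [qX, eval_mul, h, eval_neg, eval_ofNat, ← P6_eq, e1, e2, e3, e4, e5]
  rw [H424.gam_eq, c4_Fc, c6_Fc, hD, h4, h6]
  ring

theorem nonDeg_of {P : Par} (hF : FreeS P)
    (hΔ : ∀ c a b : ℂ, 4 * pX P ^ 3 + 27 * qX P ^ 2 ≠ C c * (C a * X + C b) ^ 12) :
    H424.NonDeg P := by
  intro c a b
  by_contra h
  push Not at h
  apply hΔ (-108 * c / 729) a b
  have hD : DX P ≠ 0 := by
    have h1 := discX_cf0_ne hF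
    have h2 : H80.disc3 (cf0 P (X : ℂ[X])) = DX P := by
      rw [DX, ← cc_eq]
      simp only [H80.disc3, Matrix.cons_val, cf0, rho]
      ring
    rwa [h2] at h1
  apply mul_left_cancel₀ (pow_ne_zero 6 hD)
  apply Polynomial.funext
  intro d
  have h1 := eval_A P d
  rw [h d] at h1
  simp only [eval_add, eval_mul, eval_pow, eval_ofNat, eval_C, eval_X, eval_DX]
  linear_combination (-1 / 729) * h1

/-- **The conditions hold outside a hypersurface.** -/
theorem exists_poly' : ∃ F : MvPolynomial (Fin 8) ℂ, F ≠ 0 ∧ ∀ z t : Fin 4 → ℂ,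
    MvPolynomial.eval (Fin.append z t) F ≠ 0 → FreeS ⟨z, t⟩ ∧ H424.NonDeg ⟨z, t⟩ := by
  obtain ⟨F, hF, h⟩ := exists_poly
  exact ⟨F, hF, fun z t hz => ⟨(h z t hz).1, nonDeg_of (h z t hz).1 (h z t hz).2⟩⟩

end Vale.Agent.P297.H925
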