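import Vale.Agent.P297.H572.Z3.Defs

/-!
The plane cubic `Γ_δ` of a general numerical Godeaux surface with torsion `ℤ/3` and its invariants.

Letters: `x = δ + 1`, `r_i = t_i + ζ_i δ`; `e₂(v) = v³ + 3 δ v² - r₃ v - r₁` has the roots
`v_i`, and `T³ - 3 T² + g1 T + g0 = e₂(T - x)` the roots `β_i = v_i + x`;
`e₀(a) = a³ + 3 δ a² - r₄ a - r₂`, `α = a + x`, `α³ - 3 α² + f1 α + f0 = e₀(a)`;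
`ν = 6 x² - 9 x + r₃ + r₄`. A point `(α, y)` of the plane cubic corresponds to `n_i` with
`∑ n_i = 3 α`, `∑ β_i n_i = - ν`, `∑ β_i² n_i = y`, `n₁ n₂ n₃ = e₀(a)`.
-/

namespace Vale.Agent.P297.H925

open Polynomial Vale.Agent.P297.Z3

section General

variable {R : Type} [CommRing R]

/-- The discriminant of `T³ - 3 T² + g1 T + g0`. -/
def Dg (g1 g0 : R) : R := -4 * g1 ^ 3 + 9 * g1 ^ 2 - 54 * g1 * g0 - 27 * g0 ^ 2 + 108 * g0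

/-- The product of the three numbers `S2 - (β_j + β_k) S1 + β_j β_k S0`, where the `β_i` are the
roots of `T³ - 3 T² + g1 T + g0`. -/
def Nm (g1 g0 S0 S1 S2 : R) : R :=
  S2 ^ 3 - 6 * S2 ^ 2 * S1 + g1 * S2 ^ 2 * S0 + (9 + g1) * S2 * S1 ^ 2
    - 3 * (g1 - g0) * S2 * S1 * S0 - 3 * g0 * S2 * S0 ^ 2 - (3 * g1 + g0) * S1 ^ 3
    + (g1 ^ 2 - 3 * g0) * S1 ^ 2 * S0 + 2 * g1 * g0 * S1 * S0 ^ 2 + g0 ^ 2 * S0 ^ 3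

theorem Nm_roots (b1 b2 b3 S0 S1 S2 : R) (h : b1 + b2 + b3 = 3) :
    Nm (b1 * b2 + b2 * b3 + b3 * b1) (-(b1 * b2 * b3)) S0 S1 S2 =
      (S2 - (b2 + b3) * S1 + b2 * b3 * S0) * (S2 - (b3 + b1) * S1 + b3 * b1 * S0) *
        (S2 - (b1 + b2) * S1 + b1 * b2 * S0) := by
  obtain rfl : b1 = 3 - b2 - b3 := by linear_combination h
  simp only [Nm]
  ring

theorem Dg_roots (b1 b2 b3 : R) (h : b1 + b2 + b3 = 3) :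
    Dg (b1 * b2 + b2 * b3 + b3 * b1) (-(b1 * b2 * b3)) =
      ((b1 - b2) * (b2 - b3) * (b3 - b1)) ^ 2 := by
  obtain rfl : b1 = 3 - b2 - b3 := by linear_combination h
  simp only [Dg]
  ring

/-- The plane cubic. -/
def Fc (g1 g0 f1 f0 ν : R) : Fin 10 → R :=
  ![Dg g1 g0 + 27 * g0 ^ 2, -27 * g0, -3 * Dg g1 g0 - 18 * g1 * g0 * ν, 3 * g1,
    9 * (g1 - g0) * ν, f1 * Dg g1 g0 + 3 * (g1 ^ 2 - 3 * g0) * ν ^ 2, 1, 6 * ν,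
    (g1 + 9) * ν ^ 2, f0 * Dg g1 g0 + (3 * g1 + g0) * ν ^ 3]

theorem tc_Fc (g1 g0 f1 f0 ν x y z : R) : tc (Fc g1 g0 f1 f0 ν) x y z =
    Nm g1 g0 (3 * x) (-(ν * z)) y +
      Dg g1 g0 * (x ^ 3 - 3 * x ^ 2 * z + f1 * x * z ^ 2 + f0 * z ^ 3) := by
  simp only [tc, Fc, Nm, Matrix.cons_val]
  ring

/-- The invariant of degree four, up to factors. -/
def P4 (g1 g0 f1 f0 ν : R) : R :=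
  16 * g1 ^ 2 * f1 ^ 2 + 144 * g1 ^ 2 * f0 - 8 * g1 * f1 * ν ^ 2 + 24 * g1 * f1 * ν
    + 72 * g1 * f0 * ν - 48 * g1 * ν ^ 2 + 144 * g0 * f1 ^ 2 + 72 * g0 * f1 * ν
    + 1296 * g0 * f0 - 48 * f1 * ν ^ 2 + ν ^ 4 - 72 * ν ^ 3 + 144 * ν ^ 2

/-- The invariant of degree six, up to factors. -/
def P6 (g1 g0 f1 f0 ν : R) : R :=
  -64 * g1 ^ 3 * f1 ^ 3 + 288 * g1 ^ 3 * f1 ^ 2 - 864 * g1 ^ 3 * f1 * f0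
    + 3456 * g1 ^ 3 * f0 + 288 * g1 ^ 2 * f1 ^ 3 + 48 * g1 ^ 2 * f1 ^ 2 * ν ^ 2
    + 144 * g1 ^ 2 * f1 ^ 2 * ν - 648 * g1 ^ 2 * f1 ^ 2 - 432 * g1 ^ 2 * f1 * f0 * ν
    + 3888 * g1 ^ 2 * f1 * f0 - 288 * g1 ^ 2 * f1 * ν ^ 2 + 1944 * g1 ^ 2 * f0 ^ 2
    + 216 * g1 ^ 2 * f0 * ν ^ 2 + 2592 * g1 ^ 2 * f0 * ν - 7776 * g1 ^ 2 * f0
    - 864 * g1 * g0 * f1 ^ 3 - 432 * g1 * g0 * f1 ^ 2 * ν + 3888 * g1 * g0 * f1 ^ 2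
    - 11664 * g1 * g0 * f1 * f0 - 7776 * g1 * g0 * f0 * ν + 46656 * g1 * g0 * f0
    - 288 * g1 * f1 ^ 2 * ν ^ 2 - 12 * g1 * f1 * ν ^ 4 - 108 * g1 * f1 * ν ^ 3
    + 432 * g1 * f1 * ν ^ 2 + 108 * g1 * f0 * ν ^ 3 - 1296 * g1 * f0 * ν ^ 2
    + 216 * g1 * ν ^ 4 - 864 * g1 * ν ^ 3 + 1944 * g0 ^ 2 * f1 ^ 2 + 23328 * g0 ^ 2 * f0
    + 3456 * g0 * f1 ^ 3 + 216 * g0 * f1 ^ 2 * ν ^ 2 + 2592 * g0 * f1 ^ 2 * ν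
    - 7776 * g0 * f1 ^ 2 - 7776 * g0 * f1 * f0 * ν + 46656 * g0 * f1 * f0
    + 108 * g0 * f1 * ν ^ 3 - 1296 * g0 * f1 * ν ^ 2 + 23328 * g0 * f0 ^ 2
    - 5832 * g0 * f0 * ν ^ 2 + 46656 * g0 * f0 * ν - 93312 * g0 * f0 - 864 * g0 * ν ^ 3
    + 216 * f1 * ν ^ 4 - 864 * f1 * ν ^ 3 - 864 * f0 * ν ^ 3 + ν ^ 6 + 180 * ν ^ 5
    - 1296 * ν ^ 4 + 1728 * ν ^ 3

theorem c4_Fc (g1 g0 f1 f0 ν : R) : c4 (Fc g1 g0 f1 f0 ν) = 9 * Dg g1 g0 ^ 2 * P4 g1 g0 f1 f0 ν := by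
  simp only [c4, Fc, P4, Dg, Matrix.cons_val]
  ring

theorem c6_Fc (g1 g0 f1 f0 ν : R) :
    c6 (Fc g1 g0 f1 f0 ν) = 27 * Dg g1 g0 ^ 3 * P6 g1 g0 f1 f0 ν := by
  simp only [c6, Fc, P6, Dg, Matrix.cons_val]
  ring

/-- The coefficient of `x ^ 0` in `A4`. -/
def A40 (r1 r2 r3 r4 : R) : R :=
  1296 * r1 * r2 + 72 * r1 * r3 * r4 - 72 * r1 * r4 ^ 2 - 72 * r2 * r3 ^ 2
    + 72 * r2 * r3 * r4 + r3 ^ 4 - 4 * r3 ^ 3 * r4 - 24 * r3 ^ 3 + 6 * r3 ^ 2 * r4 ^ 2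
    - 48 * r3 ^ 2 * r4 + 144 * r3 ^ 2 - 4 * r3 * r4 ^ 3 - 48 * r3 * r4 ^ 2 + 288 * r3 * r4
    + r4 ^ 4 - 24 * r4 ^ 3 + 144 * r4 ^ 2

/-- The coefficient of `x ^ 1` in `A4`. -/
def A41 (r1 r2 r3 r4 : R) : R :=
  -432 * r1 * r3 - 648 * r1 * r4 - 648 * r2 * r3 - 432 * r2 * r4 + 12 * r3 ^ 3
    - 12 * r3 ^ 2 * r4 + 360 * r3 ^ 2 - 12 * r3 * r4 ^ 2 + 504 * r3 * r4 - 2592 * r3
    + 12 * r4 ^ 3 + 360 * r4 ^ 2 - 2592 * r4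

/-- The coefficient of `x ^ 2` in `A4`. -/
def A42 (r1 r2 r3 r4 : R) : R :=
  216 * r1 * r3 - 216 * r1 * r4 + 2592 * r1 - 216 * r2 * r3 + 216 * r2 * r4 + 2592 * r2
    - 234 * r3 ^ 2 + 180 * r3 * r4 + 648 * r3 - 234 * r4 ^ 2 + 648 * r4 + 11664

/-- The coefficient of `x ^ 3` in `A4`. -/
def A43 (r1 r2 r3 r4 : R) : R :=
  -1944 * r1 - 1944 * r2 + 972 * r3 + 972 * r4 - 17496

/-- `P4` in the letters `x = δ + 1`, `r_i = t_i + ζ_i δ`: total degree four. -/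
def A4 (x r1 r2 r3 r4 : R) : R :=
  A40 r1 r2 r3 r4 + x * A41 r1 r2 r3 r4 + x ^ 2 * A42 r1 r2 r3 r4 + x ^ 3 * A43 r1 r2 r3 r4
    + 6561 * x ^ 4

/-- The coefficient of `x ^ 0` in `A6`. -/
def A60 (r1 r2 r3 r4 : R) : R :=
  -23328 * r1 ^ 2 * r2 + 1944 * r1 ^ 2 * r4 ^ 2 - 23328 * r1 * r2 ^ 2
    + 1944 * r1 * r2 * r3 ^ 2 - 7776 * r1 * r2 * r3 * r4 + 1944 * r1 * r2 * r4 ^ 2
    - 93312 * r1 * r2 + 108 * r1 * r3 ^ 3 * r4 + 864 * r1 * r3 ^ 3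
    - 324 * r1 * r3 ^ 2 * r4 ^ 2 + 1296 * r1 * r3 ^ 2 * r4 + 324 * r1 * r3 * r4 ^ 3
    + 1296 * r1 * r3 * r4 ^ 2 - 108 * r1 * r4 ^ 4 + 432 * r1 * r4 ^ 3 + 7776 * r1 * r4 ^ 2
    + 1944 * r2 ^ 2 * r3 ^ 2 - 108 * r2 * r3 ^ 4 + 324 * r2 * r3 ^ 3 * r4
    + 432 * r2 * r3 ^ 3 - 324 * r2 * r3 ^ 2 * r4 ^ 2 + 1296 * r2 * r3 ^ 2 * r4
    + 7776 * r2 * r3 ^ 2 + 108 * r2 * r3 * r4 ^ 3 + 1296 * r2 * r3 * r4 ^ 2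
    + 864 * r2 * r4 ^ 3 + r3 ^ 6 - 6 * r3 ^ 5 * r4 - 36 * r3 ^ 5 + 15 * r3 ^ 4 * r4 ^ 2
    - 432 * r3 ^ 4 - 20 * r3 ^ 3 * r4 ^ 3 + 36 * r3 ^ 3 * r4 ^ 2 - 1296 * r3 ^ 3 * r4
    + 1728 * r3 ^ 3 + 15 * r3 ^ 2 * r4 ^ 4 + 36 * r3 ^ 2 * r4 ^ 3 - 2376 * r3 ^ 2 * r4 ^ 2
    + 5184 * r3 ^ 2 * r4 - 6 * r3 * r4 ^ 5 - 1296 * r3 * r4 ^ 3 + 5184 * r3 * r4 ^ 2
    + r4 ^ 6 - 36 * r4 ^ 5 - 432 * r4 ^ 4 + 1728 * r4 ^ 3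

/-- The coefficient of `x ^ 1` in `A6`. -/
def A61 (r1 r2 r3 r4 : R) : R :=
  58320 * r1 * r2 * r3 + 58320 * r1 * r2 * r4 + 139968 * r1 * r2 - 648 * r1 * r3 ^ 3
    + 972 * r1 * r3 ^ 2 * r4 - 15552 * r1 * r3 ^ 2 + 1296 * r1 * r3 * r4 ^ 2
    - 23328 * r1 * r3 * r4 - 1620 * r1 * r4 ^ 3 - 23328 * r1 * r4 ^ 2 - 1620 * r2 * r3 ^ 3
    + 1296 * r2 * r3 ^ 2 * r4 - 23328 * r2 * r3 ^ 2 + 972 * r2 * r3 * r4 ^ 2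
    - 23328 * r2 * r3 * r4 - 648 * r2 * r4 ^ 3 - 15552 * r2 * r4 ^ 2 + 18 * r3 ^ 5
    - 54 * r3 ^ 4 * r4 + 324 * r3 ^ 4 + 36 * r3 ^ 3 * r4 ^ 2 - 972 * r3 ^ 3 * r4
    + 10368 * r3 ^ 3 + 36 * r3 ^ 2 * r4 ^ 3 - 1296 * r3 ^ 2 * r4 ^ 2 + 23328 * r3 ^ 2 * r4
    - 46656 * r3 ^ 2 - 54 * r3 * r4 ^ 4 - 972 * r3 * r4 ^ 3 + 23328 * r3 * r4 ^ 2
    - 93312 * r3 * r4 + 18 * r4 ^ 5 + 324 * r4 ^ 4 + 10368 * r4 ^ 3 - 46656 * r4 ^ 2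

/-- The coefficient of `x ^ 2` in `A6`. -/
def A62 (r1 r2 r3 r4 : R) : R :=
  11664 * r1 ^ 2 * r4 - 11664 * r1 * r2 * r3 - 11664 * r1 * r2 * r4 - 332424 * r1 * r2
    + 324 * r1 * r3 ^ 3 - 972 * r1 * r3 ^ 2 * r4 + 11664 * r1 * r3 ^ 2
    + 972 * r1 * r3 * r4 ^ 2 - 20412 * r1 * r3 * r4 + 116640 * r1 * r3 - 324 * r1 * r4 ^ 3
    + 972 * r1 * r4 ^ 2 + 151632 * r1 * r4 + 11664 * r2 ^ 2 * r3 - 324 * r2 * r3 ^ 3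
    + 972 * r2 * r3 ^ 2 * r4 + 972 * r2 * r3 ^ 2 - 972 * r2 * r3 * r4 ^ 2
    - 20412 * r2 * r3 * r4 + 151632 * r2 * r3 + 324 * r2 * r4 ^ 3 + 11664 * r2 * r4 ^ 2
    + 116640 * r2 * r4 - 297 * r3 ^ 4 + 972 * r3 ^ 3 * r4 - 6480 * r3 ^ 3
    - 1350 * r3 ^ 2 * r4 ^ 2 + 972 * r3 ^ 2 * r4 - 46656 * r3 ^ 2 + 972 * r3 * r4 ^ 3
    + 972 * r3 * r4 ^ 2 - 58320 * r3 * r4 + 419904 * r3 - 297 * r4 ^ 4 - 6480 * r4 ^ 3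
    - 46656 * r4 ^ 2 + 419904 * r4

/-- The coefficient of `x ^ 3` in `A6`. -/
def A63 (r1 r2 r3 r4 : R) : R :=
  -23328 * r1 ^ 2 + 256608 * r1 * r2 - 972 * r1 * r3 ^ 2 + 5832 * r1 * r3 * r4
    - 99144 * r1 * r3 - 4860 * r1 * r4 ^ 2 - 55404 * r1 * r4 - 419904 * r1 - 23328 * r2 ^ 2
    - 4860 * r2 * r3 ^ 2 + 5832 * r2 * r3 * r4 - 55404 * r2 * r3 - 972 * r2 * r4 ^ 2
    - 99144 * r2 * r4 - 419904 * r2 - 756 * r3 ^ 3 - 2268 * r3 ^ 2 * r4 + 93312 * r3 ^ 2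
    - 2268 * r3 * r4 ^ 2 + 55404 * r3 * r4 - 419904 * r3 - 756 * r4 ^ 3 + 93312 * r4 ^ 2
    - 419904 * r4 - 1259712

/-- The coefficient of `x ^ 4` in `A6`. -/
def A64 (r1 r2 r3 r4 : R) : R :=
  17496 * r1 ^ 2 - 34992 * r1 * r2 + 8748 * r1 * r3 - 43740 * r1 * r4 + 629856 * r1
    + 17496 * r2 ^ 2 - 43740 * r2 * r3 + 8748 * r2 * r4 + 629856 * r2 - 24057 * r3 ^ 2
    + 30618 * r3 * r4 - 78732 * r3 - 24057 * r4 ^ 2 - 78732 * r4 + 2834352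

/-- The coefficient of `x ^ 5` in `A6`. -/
def A65 (r1 r2 r3 r4 : R) : R :=
  -236196 * r1 - 236196 * r2 + 118098 * r3 + 118098 * r4 - 2125764

/-- `P6` in the letters `x = δ + 1`, `r_i = t_i + ζ_i δ`: total degree six. -/
def A6 (x r1 r2 r3 r4 : R) : R :=
  A60 r1 r2 r3 r4 + x * A61 r1 r2 r3 r4 + x ^ 2 * A62 r1 r2 r3 r4 + x ^ 3 * A63 r1 r2 r3 r4
    + x ^ 4 * A64 r1 r2 r3 r4 + x ^ 5 * A65 r1 r2 r3 r4 + 531441 * x ^ 6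

theorem P4_eq (x r1 r2 r3 r4 : R) :
    P4 (6 * x - 3 * x ^ 2 - r3) (2 * x ^ 3 - 3 * x ^ 2 + r3 * x - r1) (6 * x - 3 * x ^ 2 - r4)
      (2 * x ^ 3 - 3 * x ^ 2 + r4 * x - r2) (6 * x ^ 2 - 9 * x + r3 + r4) = A4 x r1 r2 r3 r4 := by
  simp only [P4, A4, A40, A41, A42, A43]
  ring

set_option maxRecDepth 4000 in
theorem P6_eq (x r1 r2 r3 r4 : R) :
    P6 (6 * x - 3 * x ^ 2 - r3) (2 * x ^ 3 - 3 * x ^ 2 + r3 * x - r1) (6 * x - 3 * x ^ 2 - r4)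
      (2 * x ^ 3 - 3 * x ^ 2 + r4 * x - r2) (6 * x ^ 2 - 9 * x + r3 + r4) = A6 x r1 r2 r3 r4 := by
  simp only [P6, A6, A60, A61, A62, A63, A64, A65]
  ring

end General

end Vale.Agent.P297.H925
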