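import Vale.Agent.P297.H925.Inv

/-!
Degrees of the invariants of the plane cubic.
-/

namespace Vale.Agent.P297.H925

open Polynomial

section Deg

variable {R : Type} [CommRing R]

theorem dadd {p q : R[X]} {n : ℕ} (hp : p.natDegree ≤ n) (hq : q.natDegree ≤ n) :
    (p + q).natDegree ≤ n := natDegree_add_le_of_degree_le hp hq

theorem dsub {p q : R[X]} {n : ℕ} (hp : p.natDegree ≤ n) (hq : q.natDegree ≤ n) :
    (p - q).natDegree ≤ n := (natDegree_sub_le_of_le hp hq).trans (max_self n).le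

theorem dneg {p : R[X]} {n : ℕ} (hp : p.natDegree ≤ n) : (-p).natDegree ≤ n := by
  rwa [natDegree_neg]

theorem dnum (k : ℕ) [k.AtLeastTwo] (n : ℕ) : (OfNat.ofNat k : R[X]).natDegree ≤ n := by
  rw [natDegree_ofNat]
  exact Nat.zero_le n

theorem dpow {p : R[X]} (hp : p.natDegree ≤ 1) (k : ℕ) : (p ^ k).natDegree ≤ k :=
  (natDegree_pow_le_of_le k hp).trans (mul_one k).le

theorem dmul1 {p q : R[X]} {n : ℕ} (hq : q.natDegree ≤ 1) (hp : p.natDegree ≤ n) :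
    (p * q).natDegree ≤ n + 1 := natDegree_mul_le_of_le hp hq

theorem dmul2 {p q : R[X]} {n : ℕ} (hq : q.natDegree ≤ 1) (hp : p.natDegree ≤ n) :
    (p * q ^ 2).natDegree ≤ n + 2 := natDegree_mul_le_of_le hp (dpow hq 2)

theorem dmul3 {p q : R[X]} {n : ℕ} (hq : q.natDegree ≤ 1) (hp : p.natDegree ≤ n) :
    (p * q ^ 3).natDegree ≤ n + 3 := natDegree_mul_le_of_le hp (dpow hq 3)

theorem dmul4 {p q : R[X]} {n : ℕ} (hq : q.natDegree ≤ 1) (hp : p.natDegree ≤ n) :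
    (p * q ^ 4).natDegree ≤ n + 4 := natDegree_mul_le_of_le hp (dpow hq 4)

theorem dmul5 {p q : R[X]} {n : ℕ} (hq : q.natDegree ≤ 1) (hp : p.natDegree ≤ n) :
    (p * q ^ 5).natDegree ≤ n + 5 := natDegree_mul_le_of_le hp (dpow hq 5)

theorem dlow {p : R[X]} {n k : ℕ} (hp : p.natDegree ≤ k) : p.natDegree ≤ n + k :=
  hp.trans (Nat.le_add_left k n)

theorem deg_A40 {r1 r2 r3 r4 : R[X]} (h1 : r1.natDegree ≤ 1) (h2 : r2.natDegree ≤ 1)
    (h3 : r3.natDegree ≤ 1) (h4 : r4.natDegree ≤ 1) : (A40 r1 r2 r3 r4).natDegree ≤ 4 := by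
  unfold A40
  refine dadd ?_ ((dmul2 h4 (dnum 144 0)).trans (by norm_num))
  refine dsub ?_ ((dmul3 h4 (dnum 24 0)).trans (by norm_num))
  refine dadd ?_ ((dpow h4 4).trans (by norm_num))
  refine dadd ?_ ((dmul1 h4 (dmul1 h3 (dnum 288 0))).trans (by norm_num))
  refine dsub ?_ ((dmul2 h4 (dmul1 h3 (dnum 48 0))).trans (by norm_num))
  refine dsub ?_ ((dmul3 h4 (dmul1 h3 (dnum 4 0))).trans (by norm_num))
  refine dadd ?_ ((dmul2 h3 (dnum 144 0)).trans (by norm_num))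
  refine dsub ?_ ((dmul1 h4 (dmul2 h3 (dnum 48 0))).trans (by norm_num))
  refine dadd ?_ ((dmul2 h4 (dmul2 h3 (dnum 6 0))).trans (by norm_num))
  refine dsub ?_ ((dmul3 h3 (dnum 24 0)).trans (by norm_num))
  refine dsub ?_ ((dmul1 h4 (dmul3 h3 (dnum 4 0))).trans (by norm_num))
  refine dadd ?_ ((dpow h3 4).trans (by norm_num))
  refine dadd ?_ ((dmul1 h4 (dmul1 h3 (dmul1 h2 (dnum 72 0)))).trans (by norm_num))
  refine dsub ?_ ((dmul2 h3 (dmul1 h2 (dnum 72 0))).trans (by norm_num))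
  refine dsub ?_ ((dmul2 h4 (dmul1 h1 (dnum 72 0))).trans (by norm_num))
  refine dadd ?_ ((dmul1 h4 (dmul1 h3 (dmul1 h1 (dnum 72 0)))).trans (by norm_num))
  exact ((dmul1 h2 (dmul1 h1 (dnum 1296 0))).trans (by norm_num))

theorem deg_A41 {r1 r2 r3 r4 : R[X]} (h1 : r1.natDegree ≤ 1) (h2 : r2.natDegree ≤ 1)
    (h3 : r3.natDegree ≤ 1) (h4 : r4.natDegree ≤ 1) : (A41 r1 r2 r3 r4).natDegree ≤ 3 := by
  unfold A41
  refine dsub ?_ ((dmul1 h4 (dnum 2592 0)).trans (by norm_num))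
  refine dadd ?_ ((dmul2 h4 (dnum 360 0)).trans (by norm_num))
  refine dadd ?_ ((dmul3 h4 (dnum 12 0)).trans (by norm_num))
  refine dsub ?_ ((dmul1 h3 (dnum 2592 0)).trans (by norm_num))
  refine dadd ?_ ((dmul1 h4 (dmul1 h3 (dnum 504 0))).trans (by norm_num))
  refine dsub ?_ ((dmul2 h4 (dmul1 h3 (dnum 12 0))).trans (by norm_num))
  refine dadd ?_ ((dmul2 h3 (dnum 360 0)).trans (by norm_num))
  refine dsub ?_ ((dmul1 h4 (dmul2 h3 (dnum 12 0))).trans (by norm_num))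
  refine dadd ?_ ((dmul3 h3 (dnum 12 0)).trans (by norm_num))
  refine dsub ?_ ((dmul1 h4 (dmul1 h2 (dnum 432 0))).trans (by norm_num))
  refine dsub ?_ ((dmul1 h3 (dmul1 h2 (dnum 648 0))).trans (by norm_num))
  refine dsub ?_ ((dmul1 h4 (dmul1 h1 (dnum 648 0))).trans (by norm_num))
  exact ((dmul1 h3 (dmul1 h1 (dneg (dnum 432 0)))).trans (by norm_num))

theorem deg_A42 {r1 r2 r3 r4 : R[X]} (h1 : r1.natDegree ≤ 1) (h2 : r2.natDegree ≤ 1)
    (h3 : r3.natDegree ≤ 1) (h4 : r4.natDegree ≤ 1) : (A42 r1 r2 r3 r4).natDegree ≤ 2 := by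
  unfold A42
  refine dadd ?_ ((dnum 11664 0).trans (by norm_num))
  refine dadd ?_ ((dmul1 h4 (dnum 648 0)).trans (by norm_num))
  refine dsub ?_ ((dmul2 h4 (dnum 234 0)).trans (by norm_num))
  refine dadd ?_ ((dmul1 h3 (dnum 648 0)).trans (by norm_num))
  refine dadd ?_ ((dmul1 h4 (dmul1 h3 (dnum 180 0))).trans (by norm_num))
  refine dsub ?_ ((dmul2 h3 (dnum 234 0)).trans (by norm_num))
  refine dadd ?_ ((dmul1 h2 (dnum 2592 0)).trans (by norm_num))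
  refine dadd ?_ ((dmul1 h4 (dmul1 h2 (dnum 216 0))).trans (by norm_num))
  refine dsub ?_ ((dmul1 h3 (dmul1 h2 (dnum 216 0))).trans (by norm_num))
  refine dadd ?_ ((dmul1 h1 (dnum 2592 0)).trans (by norm_num))
  refine dsub ?_ ((dmul1 h4 (dmul1 h1 (dnum 216 0))).trans (by norm_num))
  exact ((dmul1 h3 (dmul1 h1 (dnum 216 0))).trans (by norm_num))

theorem deg_A43 {r1 r2 r3 r4 : R[X]} (h1 : r1.natDegree ≤ 1) (h2 : r2.natDegree ≤ 1)
    (h3 : r3.natDegree ≤ 1) (h4 : r4.natDegree ≤ 1) : (A43 r1 r2 r3 r4).natDegree ≤ 1 := by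
  unfold A43
  refine dsub ?_ ((dnum 17496 0).trans (by norm_num))
  refine dadd ?_ ((dmul1 h4 (dnum 972 0)).trans (by norm_num))
  refine dadd ?_ ((dmul1 h3 (dnum 972 0)).trans (by norm_num))
  refine dsub ?_ ((dmul1 h2 (dnum 1944 0)).trans (by norm_num))
  exact ((dmul1 h1 (dneg (dnum 1944 0))).trans (by norm_num))

theorem deg_A60 {r1 r2 r3 r4 : R[X]} (h1 : r1.natDegree ≤ 1) (h2 : r2.natDegree ≤ 1)
    (h3 : r3.natDegree ≤ 1) (h4 : r4.natDegree ≤ 1) : (A60 r1 r2 r3 r4).natDegree ≤ 6 := by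
  unfold A60
  refine dadd ?_ ((dmul3 h4 (dnum 1728 0)).trans (by norm_num))
  refine dsub ?_ ((dmul4 h4 (dnum 432 0)).trans (by norm_num))
  refine dsub ?_ ((dmul5 h4 (dnum 36 0)).trans (by norm_num))
  refine dadd ?_ ((dpow h4 6).trans (by norm_num))
  refine dadd ?_ ((dmul2 h4 (dmul1 h3 (dnum 5184 0))).trans (by norm_num))
  refine dsub ?_ ((dmul3 h4 (dmul1 h3 (dnum 1296 0))).trans (by norm_num))
  refine dsub ?_ ((dmul5 h4 (dmul1 h3 (dnum 6 0))).trans (by norm_num))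
  refine dadd ?_ ((dmul1 h4 (dmul2 h3 (dnum 5184 0))).trans (by norm_num))
  refine dsub ?_ ((dmul2 h4 (dmul2 h3 (dnum 2376 0))).trans (by norm_num))
  refine dadd ?_ ((dmul3 h4 (dmul2 h3 (dnum 36 0))).trans (by norm_num))
  refine dadd ?_ ((dmul4 h4 (dmul2 h3 (dnum 15 0))).trans (by norm_num))
  refine dadd ?_ ((dmul3 h3 (dnum 1728 0)).trans (by norm_num))
  refine dsub ?_ ((dmul1 h4 (dmul3 h3 (dnum 1296 0))).trans (by norm_num))
  refine dadd ?_ ((dmul2 h4 (dmul3 h3 (dnum 36 0))).trans (by norm_num))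
  refine dsub ?_ ((dmul3 h4 (dmul3 h3 (dnum 20 0))).trans (by norm_num))
  refine dsub ?_ ((dmul4 h3 (dnum 432 0)).trans (by norm_num))
  refine dadd ?_ ((dmul2 h4 (dmul4 h3 (dnum 15 0))).trans (by norm_num))
  refine dsub ?_ ((dmul5 h3 (dnum 36 0)).trans (by norm_num))
  refine dsub ?_ ((dmul1 h4 (dmul5 h3 (dnum 6 0))).trans (by norm_num))
  refine dadd ?_ ((dpow h3 6).trans (by norm_num))
  refine dadd ?_ ((dmul3 h4 (dmul1 h2 (dnum 864 0))).trans (by norm_num))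
  refine dadd ?_ ((dmul2 h4 (dmul1 h3 (dmul1 h2 (dnum 1296 0)))).trans (by norm_num))
  refine dadd ?_ ((dmul3 h4 (dmul1 h3 (dmul1 h2 (dnum 108 0)))).trans (by norm_num))
  refine dadd ?_ ((dmul2 h3 (dmul1 h2 (dnum 7776 0))).trans (by norm_num))
  refine dadd ?_ ((dmul1 h4 (dmul2 h3 (dmul1 h2 (dnum 1296 0)))).trans (by norm_num))
  refine dsub ?_ ((dmul2 h4 (dmul2 h3 (dmul1 h2 (dnum 324 0)))).trans (by norm_num))
  refine dadd ?_ ((dmul3 h3 (dmul1 h2 (dnum 432 0))).trans (by norm_num))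
  refine dadd ?_ ((dmul1 h4 (dmul3 h3 (dmul1 h2 (dnum 324 0)))).trans (by norm_num))
  refine dsub ?_ ((dmul4 h3 (dmul1 h2 (dnum 108 0))).trans (by norm_num))
  refine dadd ?_ ((dmul2 h3 (dmul2 h2 (dnum 1944 0))).trans (by norm_num))
  refine dadd ?_ ((dmul2 h4 (dmul1 h1 (dnum 7776 0))).trans (by norm_num))
  refine dadd ?_ ((dmul3 h4 (dmul1 h1 (dnum 432 0))).trans (by norm_num))
  refine dsub ?_ ((dmul4 h4 (dmul1 h1 (dnum 108 0))).trans (by norm_num))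
  refine dadd ?_ ((dmul2 h4 (dmul1 h3 (dmul1 h1 (dnum 1296 0)))).trans (by norm_num))
  refine dadd ?_ ((dmul3 h4 (dmul1 h3 (dmul1 h1 (dnum 324 0)))).trans (by norm_num))
  refine dadd ?_ ((dmul1 h4 (dmul2 h3 (dmul1 h1 (dnum 1296 0)))).trans (by norm_num))
  refine dsub ?_ ((dmul2 h4 (dmul2 h3 (dmul1 h1 (dnum 324 0)))).trans (by norm_num))
  refine dadd ?_ ((dmul3 h3 (dmul1 h1 (dnum 864 0))).trans (by norm_num))
  refine dadd ?_ ((dmul1 h4 (dmul3 h3 (dmul1 h1 (dnum 108 0)))).trans (by norm_num))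
  refine dsub ?_ ((dmul1 h2 (dmul1 h1 (dnum 93312 0))).trans (by norm_num))
  refine dadd ?_ ((dmul2 h4 (dmul1 h2 (dmul1 h1 (dnum 1944 0)))).trans (by norm_num))
  refine dsub ?_ ((dmul1 h4 (dmul1 h3 (dmul1 h2 (dmul1 h1 (dnum 7776 0))))).trans (by norm_num))
  refine dadd ?_ ((dmul2 h3 (dmul1 h2 (dmul1 h1 (dnum 1944 0)))).trans (by norm_num))
  refine dsub ?_ ((dmul2 h2 (dmul1 h1 (dnum 23328 0))).trans (by norm_num))
  refine dadd ?_ ((dmul2 h4 (dmul2 h1 (dnum 1944 0))).trans (by norm_num))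
  exact ((dmul1 h2 (dmul2 h1 (dneg (dnum 23328 0)))).trans (by norm_num))

theorem deg_A61 {r1 r2 r3 r4 : R[X]} (h1 : r1.natDegree ≤ 1) (h2 : r2.natDegree ≤ 1)
    (h3 : r3.natDegree ≤ 1) (h4 : r4.natDegree ≤ 1) : (A61 r1 r2 r3 r4).natDegree ≤ 5 := by
  unfold A61
  refine dsub ?_ ((dmul2 h4 (dnum 46656 0)).trans (by norm_num))
  refine dadd ?_ ((dmul3 h4 (dnum 10368 0)).trans (by norm_num))
  refine dadd ?_ ((dmul4 h4 (dnum 324 0)).trans (by norm_num))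
  refine dadd ?_ ((dmul5 h4 (dnum 18 0)).trans (by norm_num))
  refine dsub ?_ ((dmul1 h4 (dmul1 h3 (dnum 93312 0))).trans (by norm_num))
  refine dadd ?_ ((dmul2 h4 (dmul1 h3 (dnum 23328 0))).trans (by norm_num))
  refine dsub ?_ ((dmul3 h4 (dmul1 h3 (dnum 972 0))).trans (by norm_num))
  refine dsub ?_ ((dmul4 h4 (dmul1 h3 (dnum 54 0))).trans (by norm_num))
  refine dsub ?_ ((dmul2 h3 (dnum 46656 0)).trans (by norm_num))
  refine dadd ?_ ((dmul1 h4 (dmul2 h3 (dnum 23328 0))).trans (by norm_num))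
  refine dsub ?_ ((dmul2 h4 (dmul2 h3 (dnum 1296 0))).trans (by norm_num))
  refine dadd ?_ ((dmul3 h4 (dmul2 h3 (dnum 36 0))).trans (by norm_num))
  refine dadd ?_ ((dmul3 h3 (dnum 10368 0)).trans (by norm_num))
  refine dsub ?_ ((dmul1 h4 (dmul3 h3 (dnum 972 0))).trans (by norm_num))
  refine dadd ?_ ((dmul2 h4 (dmul3 h3 (dnum 36 0))).trans (by norm_num))
  refine dadd ?_ ((dmul4 h3 (dnum 324 0)).trans (by norm_num))
  refine dsub ?_ ((dmul1 h4 (dmul4 h3 (dnum 54 0))).trans (by norm_num))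
  refine dadd ?_ ((dmul5 h3 (dnum 18 0)).trans (by norm_num))
  refine dsub ?_ ((dmul2 h4 (dmul1 h2 (dnum 15552 0))).trans (by norm_num))
  refine dsub ?_ ((dmul3 h4 (dmul1 h2 (dnum 648 0))).trans (by norm_num))
  refine dsub ?_ ((dmul1 h4 (dmul1 h3 (dmul1 h2 (dnum 23328 0)))).trans (by norm_num))
  refine dadd ?_ ((dmul2 h4 (dmul1 h3 (dmul1 h2 (dnum 972 0)))).trans (by norm_num))
  refine dsub ?_ ((dmul2 h3 (dmul1 h2 (dnum 23328 0))).trans (by norm_num))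
  refine dadd ?_ ((dmul1 h4 (dmul2 h3 (dmul1 h2 (dnum 1296 0)))).trans (by norm_num))
  refine dsub ?_ ((dmul3 h3 (dmul1 h2 (dnum 1620 0))).trans (by norm_num))
  refine dsub ?_ ((dmul2 h4 (dmul1 h1 (dnum 23328 0))).trans (by norm_num))
  refine dsub ?_ ((dmul3 h4 (dmul1 h1 (dnum 1620 0))).trans (by norm_num))
  refine dsub ?_ ((dmul1 h4 (dmul1 h3 (dmul1 h1 (dnum 23328 0)))).trans (by norm_num))
  refine dadd ?_ ((dmul2 h4 (dmul1 h3 (dmul1 h1 (dnum 1296 0)))).trans (by norm_num))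
  refine dsub ?_ ((dmul2 h3 (dmul1 h1 (dnum 15552 0))).trans (by norm_num))
  refine dadd ?_ ((dmul1 h4 (dmul2 h3 (dmul1 h1 (dnum 972 0)))).trans (by norm_num))
  refine dsub ?_ ((dmul3 h3 (dmul1 h1 (dnum 648 0))).trans (by norm_num))
  refine dadd ?_ ((dmul1 h2 (dmul1 h1 (dnum 139968 0))).trans (by norm_num))
  refine dadd ?_ ((dmul1 h4 (dmul1 h2 (dmul1 h1 (dnum 58320 0)))).trans (by norm_num))
  exact ((dmul1 h3 (dmul1 h2 (dmul1 h1 (dnum 58320 0)))).trans (by norm_num))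

theorem deg_A62 {r1 r2 r3 r4 : R[X]} (h1 : r1.natDegree ≤ 1) (h2 : r2.natDegree ≤ 1)
    (h3 : r3.natDegree ≤ 1) (h4 : r4.natDegree ≤ 1) : (A62 r1 r2 r3 r4).natDegree ≤ 4 := by
  unfold A62
  refine dadd ?_ ((dmul1 h4 (dnum 419904 0)).trans (by norm_num))
  refine dsub ?_ ((dmul2 h4 (dnum 46656 0)).trans (by norm_num))
  refine dsub ?_ ((dmul3 h4 (dnum 6480 0)).trans (by norm_num))
  refine dsub ?_ ((dmul4 h4 (dnum 297 0)).trans (by norm_num))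
  refine dadd ?_ ((dmul1 h3 (dnum 419904 0)).trans (by norm_num))
  refine dsub ?_ ((dmul1 h4 (dmul1 h3 (dnum 58320 0))).trans (by norm_num))
  refine dadd ?_ ((dmul2 h4 (dmul1 h3 (dnum 972 0))).trans (by norm_num))
  refine dadd ?_ ((dmul3 h4 (dmul1 h3 (dnum 972 0))).trans (by norm_num))
  refine dsub ?_ ((dmul2 h3 (dnum 46656 0)).trans (by norm_num))
  refine dadd ?_ ((dmul1 h4 (dmul2 h3 (dnum 972 0))).trans (by norm_num))
  refine dsub ?_ ((dmul2 h4 (dmul2 h3 (dnum 1350 0))).trans (by norm_num))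
  refine dsub ?_ ((dmul3 h3 (dnum 6480 0)).trans (by norm_num))
  refine dadd ?_ ((dmul1 h4 (dmul3 h3 (dnum 972 0))).trans (by norm_num))
  refine dsub ?_ ((dmul4 h3 (dnum 297 0)).trans (by norm_num))
  refine dadd ?_ ((dmul1 h4 (dmul1 h2 (dnum 116640 0))).trans (by norm_num))
  refine dadd ?_ ((dmul2 h4 (dmul1 h2 (dnum 11664 0))).trans (by norm_num))
  refine dadd ?_ ((dmul3 h4 (dmul1 h2 (dnum 324 0))).trans (by norm_num))
  refine dadd ?_ ((dmul1 h3 (dmul1 h2 (dnum 151632 0))).trans (by norm_num))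
  refine dsub ?_ ((dmul1 h4 (dmul1 h3 (dmul1 h2 (dnum 20412 0)))).trans (by norm_num))
  refine dsub ?_ ((dmul2 h4 (dmul1 h3 (dmul1 h2 (dnum 972 0)))).trans (by norm_num))
  refine dadd ?_ ((dmul2 h3 (dmul1 h2 (dnum 972 0))).trans (by norm_num))
  refine dadd ?_ ((dmul1 h4 (dmul2 h3 (dmul1 h2 (dnum 972 0)))).trans (by norm_num))
  refine dsub ?_ ((dmul3 h3 (dmul1 h2 (dnum 324 0))).trans (by norm_num))
  refine dadd ?_ ((dmul1 h3 (dmul2 h2 (dnum 11664 0))).trans (by norm_num))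
  refine dadd ?_ ((dmul1 h4 (dmul1 h1 (dnum 151632 0))).trans (by norm_num))
  refine dadd ?_ ((dmul2 h4 (dmul1 h1 (dnum 972 0))).trans (by norm_num))
  refine dsub ?_ ((dmul3 h4 (dmul1 h1 (dnum 324 0))).trans (by norm_num))
  refine dadd ?_ ((dmul1 h3 (dmul1 h1 (dnum 116640 0))).trans (by norm_num))
  refine dsub ?_ ((dmul1 h4 (dmul1 h3 (dmul1 h1 (dnum 20412 0)))).trans (by norm_num))
  refine dadd ?_ ((dmul2 h4 (dmul1 h3 (dmul1 h1 (dnum 972 0)))).trans (by norm_num))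
  refine dadd ?_ ((dmul2 h3 (dmul1 h1 (dnum 11664 0))).trans (by norm_num))
  refine dsub ?_ ((dmul1 h4 (dmul2 h3 (dmul1 h1 (dnum 972 0)))).trans (by norm_num))
  refine dadd ?_ ((dmul3 h3 (dmul1 h1 (dnum 324 0))).trans (by norm_num))
  refine dsub ?_ ((dmul1 h2 (dmul1 h1 (dnum 332424 0))).trans (by norm_num))
  refine dsub ?_ ((dmul1 h4 (dmul1 h2 (dmul1 h1 (dnum 11664 0)))).trans (by norm_num))
  refine dsub ?_ ((dmul1 h3 (dmul1 h2 (dmul1 h1 (dnum 11664 0)))).trans (by norm_num))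
  exact ((dmul1 h4 (dmul2 h1 (dnum 11664 0))).trans (by norm_num))

theorem deg_A63 {r1 r2 r3 r4 : R[X]} (h1 : r1.natDegree ≤ 1) (h2 : r2.natDegree ≤ 1)
    (h3 : r3.natDegree ≤ 1) (h4 : r4.natDegree ≤ 1) : (A63 r1 r2 r3 r4).natDegree ≤ 3 := by
  unfold A63
  refine dsub ?_ ((dnum 1259712 0).trans (by norm_num))
  refine dsub ?_ ((dmul1 h4 (dnum 419904 0)).trans (by norm_num))
  refine dadd ?_ ((dmul2 h4 (dnum 93312 0)).trans (by norm_num))
  refine dsub ?_ ((dmul3 h4 (dnum 756 0)).trans (by norm_num))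
  refine dsub ?_ ((dmul1 h3 (dnum 419904 0)).trans (by norm_num))
  refine dadd ?_ ((dmul1 h4 (dmul1 h3 (dnum 55404 0))).trans (by norm_num))
  refine dsub ?_ ((dmul2 h4 (dmul1 h3 (dnum 2268 0))).trans (by norm_num))
  refine dadd ?_ ((dmul2 h3 (dnum 93312 0)).trans (by norm_num))
  refine dsub ?_ ((dmul1 h4 (dmul2 h3 (dnum 2268 0))).trans (by norm_num))
  refine dsub ?_ ((dmul3 h3 (dnum 756 0)).trans (by norm_num))
  refine dsub ?_ ((dmul1 h2 (dnum 419904 0)).trans (by norm_num))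
  refine dsub ?_ ((dmul1 h4 (dmul1 h2 (dnum 99144 0))).trans (by norm_num))
  refine dsub ?_ ((dmul2 h4 (dmul1 h2 (dnum 972 0))).trans (by norm_num))
  refine dsub ?_ ((dmul1 h3 (dmul1 h2 (dnum 55404 0))).trans (by norm_num))
  refine dadd ?_ ((dmul1 h4 (dmul1 h3 (dmul1 h2 (dnum 5832 0)))).trans (by norm_num))
  refine dsub ?_ ((dmul2 h3 (dmul1 h2 (dnum 4860 0))).trans (by norm_num))
  refine dsub ?_ ((dmul2 h2 (dnum 23328 0)).trans (by norm_num))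
  refine dsub ?_ ((dmul1 h1 (dnum 419904 0)).trans (by norm_num))
  refine dsub ?_ ((dmul1 h4 (dmul1 h1 (dnum 55404 0))).trans (by norm_num))
  refine dsub ?_ ((dmul2 h4 (dmul1 h1 (dnum 4860 0))).trans (by norm_num))
  refine dsub ?_ ((dmul1 h3 (dmul1 h1 (dnum 99144 0))).trans (by norm_num))
  refine dadd ?_ ((dmul1 h4 (dmul1 h3 (dmul1 h1 (dnum 5832 0)))).trans (by norm_num))
  refine dsub ?_ ((dmul2 h3 (dmul1 h1 (dnum 972 0))).trans (by norm_num))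
  refine dadd ?_ ((dmul1 h2 (dmul1 h1 (dnum 256608 0))).trans (by norm_num))
  exact ((dmul2 h1 (dneg (dnum 23328 0))).trans (by norm_num))

theorem deg_A64 {r1 r2 r3 r4 : R[X]} (h1 : r1.natDegree ≤ 1) (h2 : r2.natDegree ≤ 1)
    (h3 : r3.natDegree ≤ 1) (h4 : r4.natDegree ≤ 1) : (A64 r1 r2 r3 r4).natDegree ≤ 2 := by
  unfold A64
  refine dadd ?_ ((dnum 2834352 0).trans (by norm_num))
  refine dsub ?_ ((dmul1 h4 (dnum 78732 0)).trans (by norm_num))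
  refine dsub ?_ ((dmul2 h4 (dnum 24057 0)).trans (by norm_num))
  refine dsub ?_ ((dmul1 h3 (dnum 78732 0)).trans (by norm_num))
  refine dadd ?_ ((dmul1 h4 (dmul1 h3 (dnum 30618 0))).trans (by norm_num))
  refine dsub ?_ ((dmul2 h3 (dnum 24057 0)).trans (by norm_num))
  refine dadd ?_ ((dmul1 h2 (dnum 629856 0)).trans (by norm_num))
  refine dadd ?_ ((dmul1 h4 (dmul1 h2 (dnum 8748 0))).trans (by norm_num))
  refine dsub ?_ ((dmul1 h3 (dmul1 h2 (dnum 43740 0))).trans (by norm_num))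
  refine dadd ?_ ((dmul2 h2 (dnum 17496 0)).trans (by norm_num))
  refine dadd ?_ ((dmul1 h1 (dnum 629856 0)).trans (by norm_num))
  refine dsub ?_ ((dmul1 h4 (dmul1 h1 (dnum 43740 0))).trans (by norm_num))
  refine dadd ?_ ((dmul1 h3 (dmul1 h1 (dnum 8748 0))).trans (by norm_num))
  refine dsub ?_ ((dmul1 h2 (dmul1 h1 (dnum 34992 0))).trans (by norm_num))
  exact ((dmul2 h1 (dnum 17496 0)).trans (by norm_num))

theorem deg_A65 {r1 r2 r3 r4 : R[X]} (h1 : r1.natDegree ≤ 1) (h2 : r2.natDegree ≤ 1)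
    (h3 : r3.natDegree ≤ 1) (h4 : r4.natDegree ≤ 1) : (A65 r1 r2 r3 r4).natDegree ≤ 1 := by
  unfold A65
  refine dsub ?_ ((dnum 2125764 0).trans (by norm_num))
  refine dadd ?_ ((dmul1 h4 (dnum 118098 0)).trans (by norm_num))
  refine dadd ?_ ((dmul1 h3 (dnum 118098 0)).trans (by norm_num))
  refine dsub ?_ ((dmul1 h2 (dnum 236196 0)).trans (by norm_num))
  exact ((dmul1 h1 (dneg (dnum 236196 0))).trans (by norm_num))

theorem deg_A4 {x r1 r2 r3 r4 : R[X]} (h0 : x.natDegree ≤ 1) (h1 : r1.natDegree ≤ 1)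
    (h2 : r2.natDegree ≤ 1) (h3 : r3.natDegree ≤ 1) (h4 : r4.natDegree ≤ 1) :
    (A4 x r1 r2 r3 r4).natDegree ≤ 4 := by
  unfold A4
  refine dadd (dadd (dadd (dadd (deg_A40 h1 h2 h3 h4) ?_) ?_) ?_) ?_
  · exact natDegree_mul_le_of_le h0 (deg_A41 h1 h2 h3 h4)
  · exact natDegree_mul_le_of_le (dpow h0 2) (deg_A42 h1 h2 h3 h4)
  · exact natDegree_mul_le_of_le (dpow h0 3) (deg_A43 h1 h2 h3 h4)
  · exact (dmul4 h0 (dnum 6561 0)).trans (by norm_num)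

theorem deg_A6 {x r1 r2 r3 r4 : R[X]} (h0 : x.natDegree ≤ 1) (h1 : r1.natDegree ≤ 1)
    (h2 : r2.natDegree ≤ 1) (h3 : r3.natDegree ≤ 1) (h4 : r4.natDegree ≤ 1) :
    (A6 x r1 r2 r3 r4).natDegree ≤ 6 := by
  unfold A6
  refine dadd (dadd (dadd (dadd (dadd (dadd (deg_A60 h1 h2 h3 h4) ?_) ?_) ?_) ?_) ?_) ?_
  · exact natDegree_mul_le_of_le h0 (deg_A61 h1 h2 h3 h4)
  · exact natDegree_mul_le_of_le (dpow h0 2) (deg_A62 h1 h2 h3 h4)
  · exact natDegree_mul_le_of_le (dpow h0 3) (deg_A63 h1 h2 h3 h4)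
  · exact natDegree_mul_le_of_le (dpow h0 4) (deg_A64 h1 h2 h3 h4)
  · exact natDegree_mul_le_of_le (dpow h0 5) (deg_A65 h1 h2 h3 h4)
  · exact natDegree_mul_le_of_le (dnum 531441 0) (dpow h0 6)

end Deg

end Vale.Agent.P297.H925
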