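import Vale.Agent.P297.H925.InvDeg
import Vale.Agent.P297.H572.Z3.Cov
import Vale.Agent.P297.H80.Z3.Dict
import Vale.Agent.P297.H279.Chart

/-!
The plane cubic of the general `ℤ/3` Godeaux surface in the letters `δ, r_i = t_i + ζ_i δ`, in
three coordinate systems, and its invariants over `ℂ[δ]`.
-/

namespace Vale.Agent.P297.H925

open Polynomial Vale.Agent.P297.Z3 Vale.Agent.P297.H80

section General

variable {R : Type} [CommRing R]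

/-- The cubic form `f (x + k z, y - p x - q z, z)`. -/
def shear (k p q : R) (f : Fin 10 → R) : Fin 10 → R :=
  ![f 0 - f 1 * p + f 3 * p ^ 2 - f 6 * p ^ 3,
    f 1 - 2 * f 3 * p + 3 * f 6 * p ^ 2,
    3 * f 0 * k + f 1 * (-2 * k * p - q) + f 2 + f 3 * (2 * p * q + k * p ^ 2) - f 4 * p
      - 3 * f 6 * p ^ 2 * q + f 7 * p ^ 2,
    f 3 - 3 * f 6 * p,
    2 * f 1 * k + f 3 * (-2 * q - 2 * k * p) + f 4 + 6 * f 6 * p * q - 2 * f 7 * p,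
    3 * f 0 * k ^ 2 + f 1 * (-k ^ 2 * p - 2 * k * q) + 2 * f 2 * k
      + f 3 * (q ^ 2 + 2 * k * p * q) + f 4 * (-q - k * p) + f 5 - 3 * f 6 * p * q ^ 2
      + 2 * f 7 * p * q - f 8 * p,
    f 6,
    f 3 * k - 3 * f 6 * q + f 7,
    f 1 * k ^ 2 - 2 * f 3 * k * q + f 4 * k + 3 * f 6 * q ^ 2 - 2 * f 7 * q + f 8,
    f 0 * k ^ 3 - f 1 * k ^ 2 * q + f 2 * k ^ 2 + f 3 * k * q ^ 2 - f 4 * k * q + f 5 * k
      - f 6 * q ^ 3 + f 7 * q ^ 2 - f 8 * q + f 9]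

theorem tc_shear (k p q : R) (f : Fin 10 → R) (x y z : R) :
    tc (shear k p q f) x y z = tc f (x + k * z) (y - p * x - q * z) z := by
  simp only [tc, shear, Matrix.cons_val]
  ring

theorem shear_zero (f : Fin 10 → R) : shear 0 0 0 f = f := by
  funext i
  fin_cases i <;> simp [shear]

theorem map_shear {S : Type} [CommRing S] (σ : R →+* S) (k p q : R) (f : Fin 10 → R) :
    (fun i ↦ σ (shear k p q f i)) = shear (σ k) (σ p) (σ q) (fun i ↦ σ (f i)) := by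
  funext i
  fin_cases i <;> simp [shear, map_ofNat]

theorem inv_shear_field {K : Type} [Field K] [CharZero K] (k p q : K) (f : Fin 10 → K) :
    c4 (shear k p q f) = c4 f ∧ c6 (shear k p q f) = c6 f := by
  have hdet : (!![1, 0, k; -p, 1, -q; 0, 0, 1] : Matrix (Fin 3) (Fin 3) K).det = 1 := by
    simp [Matrix.det_fin_three]
  have h := stmtCov K f (shear k p q f) !![1, 0, k; -p, 1, -q; 0, 0, 1] (by simp [hdet]) ?_
  · rwa [hdet, one_pow, one_pow, one_mul, one_mul] at h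
  · intro v
    have e0 : (!![1, 0, k; -p, 1, -q; 0, 0, 1] : Matrix (Fin 3) (Fin 3) K).mulVec v 0 =
        v 0 + k * v 2 := by
      simp [Matrix.mulVec, dotProduct, Fin.sum_univ_three]
    have e1 : (!![1, 0, k; -p, 1, -q; 0, 0, 1] : Matrix (Fin 3) (Fin 3) K).mulVec v 1 =
        v 1 - p * v 0 - q * v 2 := by
      simp [Matrix.mulVec, dotProduct, Fin.sum_univ_three]
      ring
    have e2 : (!![1, 0, k; -p, 1, -q; 0, 0, 1] : Matrix (Fin 3) (Fin 3) K).mulVec v 2 = v 2 := by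
      simp [Matrix.mulVec, dotProduct, Fin.sum_univ_three]
    rw [tv, tv, e0, e1, e2, tc_shear]

theorem map_c4' {S : Type} [CommRing S] (σ : R →+* S) (f : Fin 10 → R) :
    σ (c4 f) = c4 (fun i ↦ σ (f i)) := by
  simp only [c4, map_add, map_sub, map_mul, map_pow, map_ofNat]

theorem map_c6' {S : Type} [CommRing S] (σ : R →+* S) (f : Fin 10 → R) :
    σ (c6 f) = c6 (fun i ↦ σ (f i)) := by
  simp only [c6, map_add, map_sub, map_neg, map_mul, map_pow, map_ofNat]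

theorem inv_shear [IsDomain R] [CharZero R] (k p q : R) (f : Fin 10 → R) :
    c4 (shear k p q f) = c4 f ∧ c6 (shear k p q f) = c6 f := by
  have hinj : Function.Injective (algebraMap R (FractionRing R)) :=
    IsFractionRing.injective R (FractionRing R)
  have : CharZero (FractionRing R) := charZero_of_injective_algebraMap hinj
  have h := inv_shear_field (algebraMap R (FractionRing R) k) (algebraMap R (FractionRing R) p)
    (algebraMap R (FractionRing R) q) (fun i ↦ algebraMap R (FractionRing R) (f i))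
  rw [← map_shear, ← map_c4', ← map_c4', ← map_c6', ← map_c6'] at h
  exact ⟨hinj h.1, hinj h.2⟩

/-- The plane cubic in the letters with shift `k`: `k = 0` centered, `k = 1` the letters `m_i`,
`k = δ + 1` unshifted. -/
def Fk (k g1 g0 f1 f0 ν : R) : Fin 10 → R :=
  shear k (3 * k ^ 2) (2 * k * ν + 3 * k ^ 3) (Fc g1 g0 f1 f0 ν)

theorem nrm3_shift (k g1 g0 S0 S1 S2 : R) :
    nrm3 ![k ^ 3 - 3 * k ^ 2 + g1 * k + g0, 3 * k ^ 2 - 6 * k + g1, 3 * k - 3] ![S0, S1, S2] =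
      Nm g1 g0 S0 (S1 + k * S0) (S2 + 2 * k * S1 + k ^ 2 * S0) := by
  simp only [nrm3, nrm, Nm, Matrix.cons_val]
  ring

theorem disc3_shift (k g1 g0 : R) :
    disc3 ![k ^ 3 - 3 * k ^ 2 + g1 * k + g0, 3 * k ^ 2 - 6 * k + g1, 3 * k - 3] = Dg g1 g0 := by
  simp only [disc3, Dg, Matrix.cons_val]
  ring

theorem tc_Fk (k g1 g0 f1 f0 ν x y z : R) : tc (Fk k g1 g0 f1 f0 ν) x y z =
    nrm3 ![k ^ 3 - 3 * k ^ 2 + g1 * k + g0, 3 * k ^ 2 - 6 * k + g1, 3 * k - 3]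
        ![3 * (x + k * z), -(3 * k * x + (ν + 3 * k ^ 2) * z), y] +
      disc3 ![k ^ 3 - 3 * k ^ 2 + g1 * k + g0, 3 * k ^ 2 - 6 * k + g1, 3 * k - 3] *
        (x ^ 3 + (3 * k - 3) * x ^ 2 * z + (3 * k ^ 2 - 6 * k + f1) * x * z ^ 2 +
          (k ^ 3 - 3 * k ^ 2 + f1 * k + f0) * z ^ 3) := by
  rw [Fk, tc_shear, tc_Fc, nrm3_shift, disc3_shift]
  have e1 : -(3 * k * x + (ν + 3 * k ^ 2) * z) + k * (3 * (x + k * z)) = -(ν * z) := by ring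
  have e2 : y + 2 * k * -(3 * k * x + (ν + 3 * k ^ 2) * z) + k ^ 2 * (3 * (x + k * z)) =
      y - 3 * k ^ 2 * x - (2 * k * ν + 3 * k ^ 3) * z := by ring
  rw [e1, e2]
  ring

theorem inv_Fk [IsDomain R] [CharZero R] (k g1 g0 f1 f0 ν : R) :
    c4 (Fk k g1 g0 f1 f0 ν) = 9 * Dg g1 g0 ^ 2 * P4 g1 g0 f1 f0 ν ∧
      c6 (Fk k g1 g0 f1 f0 ν) = 27 * Dg g1 g0 ^ 3 * P6 g1 g0 f1 f0 ν := by
  have h := inv_shear k (3 * k ^ 2) (2 * k * ν + 3 * k ^ 3) (Fc g1 g0 f1 f0 ν)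
  rw [Fk, h.1, h.2, c4_Fc, c6_Fc]
  exact ⟨rfl, rfl⟩

/-- The plane cubic in the letters `δ = d`, `r_i = t_i + ζ_i δ` and with the shift `k`; the roots
are those of the cubic with `r₃, r₁`. -/
def Fs (k d r1 r2 r3 r4 : R) : Fin 10 → R :=
  Fk k (6 * (d + 1) - 3 * (d + 1) ^ 2 - r3)
    (2 * (d + 1) ^ 3 - 3 * (d + 1) ^ 2 + r3 * (d + 1) - r1)
    (6 * (d + 1) - 3 * (d + 1) ^ 2 - r4)
    (2 * (d + 1) ^ 3 - 3 * (d + 1) ^ 2 + r4 * (d + 1) - r2)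
    (6 * (d + 1) ^ 2 - 9 * (d + 1) + r3 + r4)

theorem inv_Fs [IsDomain R] [CharZero R] (k d r1 r2 r3 r4 : R) :
    c4 (Fs k d r1 r2 r3 r4) = 9 * disc3 ![2 * d ^ 3 + r3 * d - r1, -(r3 + 3 * d ^ 2), 0] ^ 2 *
        A4 (d + 1) r1 r2 r3 r4 ∧
      c6 (Fs k d r1 r2 r3 r4) = 27 * disc3 ![2 * d ^ 3 + r3 * d - r1, -(r3 + 3 * d ^ 2), 0] ^ 3 *
        A6 (d + 1) r1 r2 r3 r4 := by
  have h := inv_Fk k (6 * (d + 1) - 3 * (d + 1) ^ 2 - r3)
    (2 * (d + 1) ^ 3 - 3 * (d + 1) ^ 2 + r3 * (d + 1) - r1)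
    (6 * (d + 1) - 3 * (d + 1) ^ 2 - r4)
    (2 * (d + 1) ^ 3 - 3 * (d + 1) ^ 2 + r4 * (d + 1) - r2)
    (6 * (d + 1) ^ 2 - 9 * (d + 1) + r3 + r4)
  have hD : disc3 ![2 * d ^ 3 + r3 * d - r1, -(r3 + 3 * d ^ 2), 0] =
      Dg (6 * (d + 1) - 3 * (d + 1) ^ 2 - r3)
        (2 * (d + 1) ^ 3 - 3 * (d + 1) ^ 2 + r3 * (d + 1) - r1) := by
    simp only [disc3, Dg, Matrix.cons_val]
    ring
  rw [P4_eq, P6_eq, ← hD] at h
  exact h

/-- The letters `m_i`. -/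
theorem tc_Fs_one (d r1 r2 r3 r4 x y z : R) : tc (Fs 1 d r1 r2 r3 r4) x y z =
    nrm3 ![2 * d ^ 3 + r3 * d - r1, -(r3 + 3 * d ^ 2), 0]
        ![3 * (x + z), -(3 * x + (6 * d ^ 2 + 3 * d + r3 + r4) * z), y] +
      disc3 ![2 * d ^ 3 + r3 * d - r1, -(r3 + 3 * d ^ 2), 0] *
        (x ^ 3 - (r4 + 3 * d ^ 2) * x * z ^ 2 + (2 * d ^ 3 + r4 * d - r2) * z ^ 3) := by
  have e1 : (![1 ^ 3 - 3 * 1 ^ 2 + (6 * (d + 1) - 3 * (d + 1) ^ 2 - r3) * 1 +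
      (2 * (d + 1) ^ 3 - 3 * (d + 1) ^ 2 + r3 * (d + 1) - r1),
      3 * 1 ^ 2 - 6 * 1 + (6 * (d + 1) - 3 * (d + 1) ^ 2 - r3), 3 * 1 - 3] : Fin 3 → R) =
      ![2 * d ^ 3 + r3 * d - r1, -(r3 + 3 * d ^ 2), 0] := by
    funext i
    fin_cases i
    · change 1 ^ 3 - 3 * 1 ^ 2 + (6 * (d + 1) - 3 * (d + 1) ^ 2 - r3) * 1 +
        (2 * (d + 1) ^ 3 - 3 * (d + 1) ^ 2 + r3 * (d + 1) - r1) = 2 * d ^ 3 + r3 * d - r1
      ring
    · change 3 * 1 ^ 2 - 6 * 1 + (6 * (d + 1) - 3 * (d + 1) ^ 2 - r3) = -(r3 + 3 * d ^ 2)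
      ring
    · change (3 * 1 - 3 : R) = 0
      ring
  rw [Fs, tc_Fk, e1]
  have e2 : -(3 * 1 * x + (6 * (d + 1) ^ 2 - 9 * (d + 1) + r3 + r4 + 3 * 1 ^ 2) * z) =
      -(3 * x + (6 * d ^ 2 + 3 * d + r3 + r4) * z) := by ring
  rw [e2, one_mul z]
  ring

/-- The unshifted letters. -/
theorem tc_Fs_unshifted (d r1 r2 r3 r4 x y z : R) : tc (Fs (d + 1) d r1 r2 r3 r4) x y z =
    nrm3 ![-r1, -r3, 3 * d]
        ![3 * (x + (d + 1) * z), -(3 * (d + 1) * x + (9 * d ^ 2 + 9 * d + r3 + r4) * z), y] +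
      disc3 ![-r1, -r3, 3 * d] *
        (x ^ 3 + 3 * d * x ^ 2 * z - r4 * x * z ^ 2 - r2 * z ^ 3) := by
  have e1 : (![(d + 1) ^ 3 - 3 * (d + 1) ^ 2 + (6 * (d + 1) - 3 * (d + 1) ^ 2 - r3) * (d + 1) +
      (2 * (d + 1) ^ 3 - 3 * (d + 1) ^ 2 + r3 * (d + 1) - r1),
      3 * (d + 1) ^ 2 - 6 * (d + 1) + (6 * (d + 1) - 3 * (d + 1) ^ 2 - r3), 3 * (d + 1) - 3] :
        Fin 3 → R) = ![-r1, -r3, 3 * d] := by
    funext i
    fin_cases i
    · change (d + 1) ^ 3 - 3 * (d + 1) ^ 2 + (6 * (d + 1) - 3 * (d + 1) ^ 2 - r3) * (d + 1) +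
        (2 * (d + 1) ^ 3 - 3 * (d + 1) ^ 2 + r3 * (d + 1) - r1) = -r1
      ring
    · change 3 * (d + 1) ^ 2 - 6 * (d + 1) + (6 * (d + 1) - 3 * (d + 1) ^ 2 - r3) = -r3
      ring
    · change 3 * (d + 1) - 3 = 3 * d
      ring
  rw [Fs, tc_Fk, e1]
  have e2 : -(3 * (d + 1) * x +
      (6 * (d + 1) ^ 2 - 9 * (d + 1) + r3 + r4 + 3 * (d + 1) ^ 2) * z) =
      -(3 * (d + 1) * x + (9 * d ^ 2 + 9 * d + r3 + r4) * z) := by ring
  rw [e2]
  ring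

end General

section Par

open Vale.Agent.P297.H288 Vale.Agent.P297.H279

variable {R : Type} [CommRing R] [Algebra ℂ R] (P : Par)

/-- The polynomial `t_{i+1} + ζ_{i+1} δ`. -/
def rho (δ : R) (i : Fin 4) : R := algebraMap ℂ R (P.t i) + algebraMap ℂ R (P.z i) * δ

/-- The coefficients of the cubic `e0`. -/
def cc (δ : R) : Fin 3 → R := ![-m2 P δ, -m4 P δ, 0]

/-- The plane cubic with affine point `(β, S₂)`: `∑ n_i = 3 (β + 1)`, `∑ v_i n_i = -(3 β + M)`,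
`∑ v_i² n_i = S₂`, `n₀ n₁ n₂ = e2(β)`, `v_i` the roots of `e0`. -/
def FP (δ : R) : Fin 10 → R := Fs 1 δ (rho P δ 1) (rho P δ 0) (rho P δ 3) (rho P δ 2)

theorem cc_eq (δ : R) :
    (![2 * δ ^ 3 + rho P δ 3 * δ - rho P δ 1, -(rho P δ 3 + 3 * δ ^ 2), 0] : Fin 3 → R) =
      cc P δ := by
  funext i
  fin_cases i
  · change 2 * δ ^ 3 + rho P δ 3 * δ - rho P δ 1 = -m2 P δ
    unfold m2 rho
    ring
  · change -(rho P δ 3 + 3 * δ ^ 2) = -m4 P δ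
    unfold m4 rho
    ring
  · rfl

theorem tc_FP (δ x y z : R) : tc (FP P δ) x y z =
    nrm3 (cc P δ) ![3 * (x + z), -(3 * x + mu P δ * z), y] +
      disc3 (cc P δ) * (x ^ 3 - m3 P δ * x * z ^ 2 - m1 P δ * z ^ 3) := by
  have h1 : 6 * δ ^ 2 + 3 * δ + rho P δ 3 + rho P δ 2 = mu P δ := by
    unfold mu m3 m4 rho
    ring
  have h2 : rho P δ 2 + 3 * δ ^ 2 = m3 P δ := by
    unfold m3 rho
    ring
  have h3 : 2 * δ ^ 3 + rho P δ 2 * δ - rho P δ 0 = -m1 P δ := by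
    unfold m1 rho
    ring
  rw [FP, tc_Fs_one, cc_eq, h1, h2, h3, neg_mul, ← sub_eq_add_neg]

theorem tc_FP_one (δ β S : R) : tc (FP P δ) β S 1 =
    nrm3 (cc P δ) ![3 * (β + 1), -(3 * β + mu P δ), S] + disc3 (cc P δ) * e2 P δ β := by
  rw [tc_FP]
  simp only [e2, mul_one, one_pow]

theorem FP_six (δ : R) : FP P δ 6 = 1 := rfl

theorem inv_FP [IsDomain R] [CharZero R] (δ : R) :
    c4 (FP P δ) = 9 * disc3 (cc P δ) ^ 2 *
        A4 (δ + 1) (rho P δ 1) (rho P δ 0) (rho P δ 3) (rho P δ 2) ∧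
      c6 (FP P δ) = 27 * disc3 (cc P δ) ^ 3 *
        A6 (δ + 1) (rho P δ 1) (rho P δ 0) (rho P δ 3) (rho P δ 2) := by
  have h := inv_Fs 1 δ (rho P δ 1) (rho P δ 0) (rho P δ 3) (rho P δ 2)
  rw [cc_eq] at h
  exact h

theorem map_rho {S : Type} [CommRing S] [Algebra ℂ S] (σ : R →ₐ[ℂ] S) (δ : R) (i : Fin 4) :
    σ (rho P δ i) = rho P (σ δ) i := by
  simp only [rho, map_add, map_mul, AlgHom.commutes]

theorem map_cc {S : Type} [CommRing S] [Algebra ℂ S] (σ : R →ₐ[ℂ] S) (δ : R) :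
    (fun i ↦ σ (cc P δ i)) = cc P (σ δ) := by
  funext i
  fin_cases i
  · change σ (-m2 P δ) = -m2 P (σ δ)
    rw [map_neg, map_m2]
  · change σ (-m4 P δ) = -m4 P (σ δ)
    rw [map_neg, map_m4]
  · exact map_zero σ

omit [Algebra ℂ R] in
theorem map_disc3 {S : Type} [CommRing S] (σ : R →+* S) (c : Fin 3 → R) :
    σ (disc3 c) = disc3 (fun i ↦ σ (c i)) := by
  simp only [disc3, map_add, map_sub, map_mul, map_pow, map_ofNat]

theorem map_FP {S : Type} [CommRing S] [Algebra ℂ S] (σ : R →ₐ[ℂ] S) (δ : R) :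
    (fun i ↦ σ (FP P δ i)) = FP P (σ δ) := by
  unfold FP Fs Fk
  have h := map_shear σ.toRingHom 1 (3 * 1 ^ 2)
    (2 * 1 * (6 * (δ + 1) ^ 2 - 9 * (δ + 1) + rho P δ 3 + rho P δ 2) + 3 * 1 ^ 3)
    (Fc (6 * (δ + 1) - 3 * (δ + 1) ^ 2 - rho P δ 3)
      (2 * (δ + 1) ^ 3 - 3 * (δ + 1) ^ 2 + rho P δ 3 * (δ + 1) - rho P δ 1)
      (6 * (δ + 1) - 3 * (δ + 1) ^ 2 - rho P δ 2)
      (2 * (δ + 1) ^ 3 - 3 * (δ + 1) ^ 2 + rho P δ 2 * (δ + 1) - rho P δ 0)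
      (6 * (δ + 1) ^ 2 - 9 * (δ + 1) + rho P δ 3 + rho P δ 2))
  refine h.trans ?_
  change shear (σ 1) (σ _) (σ _) (fun i ↦ σ _) = _
  congr 1
  · exact map_one σ
  · simp only [map_mul, map_pow, map_ofNat, map_one]
  · simp only [map_mul, map_add, map_sub, map_pow, map_ofNat, map_one, map_rho]
  · funext i
    fin_cases i <;>
      simp [Fc, Dg, map_ofNat, map_rho]

end Par

noncomputable section Poly

open Vale.Agent.P297.H288 Vale.Agent.P297.H279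

variable (P : Par)

/-- The plane cubic over `ℂ[δ]`. -/
def FX : Fin 10 → ℂ[X] := FP P (X : ℂ[X])

/-- Its discriminant datum. -/
def DX : ℂ[X] := disc3 (cc P (X : ℂ[X]))

/-- The coefficient `a` of the Weierstrass form, up to the twist. -/
def pX : ℂ[X] := -3 * A4 (X + 1) (rho P X 1) (rho P X 0) (rho P X 3) (rho P X 2)

/-- The coefficient `b` of the Weierstrass form, up to the twist. -/
def qX : ℂ[X] := -2 * A6 (X + 1) (rho P X 1) (rho P X 0) (rho P X 3) (rho P X 2)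

theorem deg_rho (i : Fin 4) : (rho P (X : ℂ[X]) i).natDegree ≤ 1 := by
  unfold rho
  rw [Polynomial.algebraMap_eq]
  exact dadd ((natDegree_C _).le.trans (Nat.zero_le 1))
    (natDegree_mul_le_of_le (natDegree_C _).le natDegree_X_le)

theorem natDegree_pX : (pX P).natDegree ≤ 4 := by
  unfold pX
  have h := deg_A4 (x := (X + 1 : ℂ[X])) (by
    rw [← C_1, natDegree_X_add_C]) (deg_rho P 1) (deg_rho P 0) (deg_rho P 3) (deg_rho P 2)
  generalize A4 (X + 1 : ℂ[X]) (rho P (X : ℂ[X]) 1) (rho P (X : ℂ[X]) 0) (rho P (X : ℂ[X]) 3)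
    (rho P (X : ℂ[X]) 2) = a at h ⊢
  exact natDegree_mul_le_of_le (dneg (dnum 3 0)) h

theorem natDegree_qX : (qX P).natDegree ≤ 6 := by
  unfold qX
  have h := deg_A6 (x := (X + 1 : ℂ[X])) (by
    rw [← C_1, natDegree_X_add_C]) (deg_rho P 1) (deg_rho P 0) (deg_rho P 3) (deg_rho P 2)
  generalize A6 (X + 1 : ℂ[X]) (rho P (X : ℂ[X]) 1) (rho P (X : ℂ[X]) 0) (rho P (X : ℂ[X]) 3)
    (rho P (X : ℂ[X]) 2) = a at h ⊢
  exact natDegree_mul_le_of_le (dneg (dnum 2 0)) h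

theorem c4_FX : c4 (FX P) = C (-48) * C (1 / 2) ^ 4 * DX P ^ 2 * pX P := by
  have h := (inv_FP P (X : ℂ[X])).1
  rw [FX, h, DX, pX, ← C_pow, ← C_mul]
  have e : (C (-48 * (1 / 2) ^ 4) : ℂ[X]) = -3 := by
    rw [show (-48 * (1 / 2) ^ 4 : ℂ) = -3 by norm_num, C_neg, map_ofNat]
  rw [e]
  ring

theorem c6_FX : c6 (FX P) = C (-864) * C (1 / 2) ^ 6 * DX P ^ 3 * qX P := by
  have h := (inv_FP P (X : ℂ[X])).2
  rw [FX, h, DX, qX, ← C_pow, ← C_mul]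
  have e : (2 : ℂ[X]) * C (-864 * (1 / 2) ^ 6) = -27 := by
    have h2 : (2 : ℂ[X]) = C 2 := (map_ofNat C 2).symm
    rw [h2, ← C_mul, show (2 * (-864 * (1 / 2) ^ 6) : ℂ) = -27 by norm_num, C_neg, map_ofNat]
  linear_combination (disc3 (cc P (X : ℂ[X])) ^ 3 *
    A6 (X + 1) (rho P X 1) (rho P X 0) (rho P X 3) (rho P X 2)) * e

theorem FX_six : FX P 6 = 1 := rfl

variable {N : Type} [CommRing N] [Algebra ℂ N]

theorem aeval_FX (δ : N) : (fun i ↦ aeval δ (FX P i)) = FP P δ := by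
  have h := map_FP P (aeval δ) (X : ℂ[X])
  rw [aeval_X] at h
  exact h

theorem aeval_DX (δ : N) : aeval δ (DX P) = disc3 (cc P δ) := by
  have h := map_disc3 (aeval δ : ℂ[X] →ₐ[ℂ] N).toRingHom (cc P (X : ℂ[X]))
  have h2 := map_cc P (aeval δ) (X : ℂ[X])
  rw [aeval_X] at h2
  exact h.trans (congrArg disc3 h2)

/-- The equation of the plane cubic. -/
theorem tc_aeval_FX (δ β S : N) : tc (fun i ↦ aeval δ (FX P i)) β S 1 =
    nrm3 (cc P δ) ![3 * (β + 1), -(3 * β + mu P δ), S] + aeval δ (DX P) * e2 P δ β := by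
  rw [aeval_FX, aeval_DX, tc_FP_one]

end Poly

end Vale.Agent.P297.H925
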