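import Vale.Agent.P297.H925.InvPoly

/-!
Short formulas for the invariants of the plane cubics of the general `ℤ/3` Godeaux surface.
-/

open Polynomial

namespace Vale.Agent.P297.H925

open Vale.Agent.P297 Vale.Agent.P297.H288

section Short

variable {R : Type} [CommRing R]

/-- The third transvectant. -/
def cP (m a b c d : R) : R := m ^ 3 + 3 * m ^ 2 + 3 * a * c * m + b * d

/-- The transvectant of the Hessians. -/
def cH (m a b c d : R) : R :=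
  2 * (a - 1) * (c - 1) * m ^ 2 + (a + b) * (c + d) * m + 2 * (a ^ 2 + b) * (c ^ 2 + d)

/-- The transvectant of the cubic covariants. -/
def cQ (m a b c d : R) : R :=
  (b + 3 * a - 2) * (d + 3 * c - 2) * m ^ 3 + 3 * (2 * a ^ 2 - a + b) * (2 * c ^ 2 - c + d) * m ^ 2
    + 3 * (a ^ 2 - a * b + 2 * b) * (c ^ 2 - c * d + 2 * d) * m
    + (2 * a ^ 3 + 3 * a * b + b ^ 2) * (2 * c ^ 3 + 3 * c * d + d ^ 2)

/-- The discriminant of `T³ - 3 T² + 3 a T + b`, divided by `-27`. -/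
def cD (a b : R) : R := 4 * a ^ 3 - 3 * a ^ 2 + 6 * a * b - 4 * b + b ^ 2

def cI (m a b c d : R) : R := 9 * m ^ 4 - 8 * m * cP m a b c d + 8 * cH m a b c d

def cJ (m a b c d : R) : R :=
  27 * m ^ 6 - 36 * m ^ 3 * cP m a b c d + 36 * m ^ 2 * cH m a b c d + 8 * cP m a b c d ^ 2
    - 16 * cQ m a b c d + 8 * cD a b * cD c d

theorem P4_short (m a b c d : R) : P4 (3 * a) b (3 * c) d (3 * m) = 81 * cI m a b c d := by
  simp only [P4, cI, cP, cH]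
  ring

theorem P6_short (m a b c d : R) : P6 (3 * a) b (3 * c) d (3 * m) = -729 * cJ m a b c d := by
  simp only [P6, cJ, cP, cH, cQ, cD]
  ring

end Short

noncomputable section Fun

variable (P : Par)

/-- `ρ_{i+1} = t_{i+1} + ζ_{i+1} δ` -/
def rr (δ : ℂ) (i : Fin 4) : ℂ := P.t i + P.z i * δ

def la (δ ρ : ℂ) : ℂ := 1 - δ ^ 2 - ρ / 3

def lb (δ ρ σ : ℂ) : ℂ := (δ + 1) ^ 2 * (2 * δ - 1) + (δ + 1) * ρ - σ

/-- `I(δ)`: the curve `E_δ` is `y² = x³ - 3 I x + 2 J`. -/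
def II (δ : ℂ) : ℂ := cI ((δ + 1) * (2 * δ - 1) + (rr P δ 2 + rr P δ 3) / 3)
  (la δ (rr P δ 2)) (lb δ (rr P δ 2) (rr P δ 0)) (la δ (rr P δ 3)) (lb δ (rr P δ 3) (rr P δ 1))

/-- `J(δ)`: the curve `E_δ` is `y² = x³ - 3 I x + 2 J`. -/
def JJ (δ : ℂ) : ℂ := cJ ((δ + 1) * (2 * δ - 1) + (rr P δ 2 + rr P δ 3) / 3)
  (la δ (rr P δ 2)) (lb δ (rr P δ 2) (rr P δ 0)) (la δ (rr P δ 3)) (lb δ (rr P δ 3) (rr P δ 1))

/-- The condition on the curves `E_δ`. -/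
def NonDeg : Prop := ∀ c a b : ℂ, ∃ δ : ℂ, II P δ ^ 3 - JJ P δ ^ 2 ≠ c * (a * δ + b) ^ 12

theorem swap_I (m a b c d : ℂ) : cI m a b c d = cI m c d a b := by
  simp only [cI, cP, cH]
  ring

theorem swap_J (m a b c d : ℂ) : cJ m a b c d = cJ m c d a b := by
  simp only [cJ, cP, cH, cQ, cD]
  ring

theorem eval_rho (δ : ℂ) (i : Fin 4) : (rho P (X : ℂ[X]) i).eval δ = rr P δ i := by
  simp [rho, rr]

theorem eval_pX (δ : ℂ) : (pX P).eval δ = -243 * II P δ := by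
  rw [pX, ← P4_eq]
  rw [II, swap_I]
  have h := P4_short ((δ + 1) * (2 * δ - 1) + (rr P δ 2 + rr P δ 3) / 3)
    (la δ (rr P δ 3)) (lb δ (rr P δ 3) (rr P δ 1)) (la δ (rr P δ 2)) (lb δ (rr P δ 2) (rr P δ 0))
  have h2 : (P4 (6 * (X + 1) - 3 * (X + 1) ^ 2 - rho P (X : ℂ[X]) 3)
      (2 * (X + 1) ^ 3 - 3 * (X + 1) ^ 2 + rho P (X : ℂ[X]) 3 * (X + 1) - rho P X 1)
      (6 * (X + 1) - 3 * (X + 1) ^ 2 - rho P (X : ℂ[X]) 2)
      (2 * (X + 1) ^ 3 - 3 * (X + 1) ^ 2 + rho P (X : ℂ[X]) 2 * (X + 1) - rho P X 0)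
      (6 * (X + 1) ^ 2 - 9 * (X + 1) + rho P X 3 + rho P X 2)).eval δ =
      P4 (3 * la δ (rr P δ 3)) (lb δ (rr P δ 3) (rr P δ 1)) (3 * la δ (rr P δ 2))
        (lb δ (rr P δ 2) (rr P δ 0)) (3 * ((δ + 1) * (2 * δ - 1) + (rr P δ 2 + rr P δ 3) / 3)) := by
    have e1 : ∀ i, 6 * (δ + 1) - 3 * (δ + 1) ^ 2 - rr P δ i = 3 * la δ (rr P δ i) := by
      intro i
      unfold la
      ring
    have e2 : ∀ i j, 2 * (δ + 1) ^ 3 - 3 * (δ + 1) ^ 2 + rr P δ i * (δ + 1) - rr P δ j =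
        lb δ (rr P δ i) (rr P δ j) := by
      intro i j
      unfold lb
      ring
    have e3 : 6 * (δ + 1) ^ 2 - 9 * (δ + 1) + rr P δ 3 + rr P δ 2 =
        3 * ((δ + 1) * (2 * δ - 1) + (rr P δ 2 + rr P δ 3) / 3) := by ring
    rw [← e1, ← e1, ← e2, ← e2, ← e3]
    simp only [P4, eval_add, eval_sub, eval_mul, eval_pow, eval_ofNat, eval_X, eval_one, eval_rho]
  rw [eval_mul, h2, h, eval_neg, eval_ofNat]
  ring

theorem eval_qX (δ : ℂ) : (qX P).eval δ = 1458 * JJ P δ := by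
  rw [qX, ← P6_eq]
  rw [JJ, swap_J]
  have h := P6_short ((δ + 1) * (2 * δ - 1) + (rr P δ 2 + rr P δ 3) / 3)
    (la δ (rr P δ 3)) (lb δ (rr P δ 3) (rr P δ 1)) (la δ (rr P δ 2)) (lb δ (rr P δ 2) (rr P δ 0))
  have h2 : (P6 (6 * (X + 1) - 3 * (X + 1) ^ 2 - rho P (X : ℂ[X]) 3)
      (2 * (X + 1) ^ 3 - 3 * (X + 1) ^ 2 + rho P (X : ℂ[X]) 3 * (X + 1) - rho P X 1)
      (6 * (X + 1) - 3 * (X + 1) ^ 2 - rho P (X : ℂ[X]) 2)
      (2 * (X + 1) ^ 3 - 3 * (X + 1) ^ 2 + rho P (X : ℂ[X]) 2 * (X + 1) - rho P X 0)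
      (6 * (X + 1) ^ 2 - 9 * (X + 1) + rho P X 3 + rho P X 2)).eval δ =
      P6 (3 * la δ (rr P δ 3)) (lb δ (rr P δ 3) (rr P δ 1)) (3 * la δ (rr P δ 2))
        (lb δ (rr P δ 2) (rr P δ 0)) (3 * ((δ + 1) * (2 * δ - 1) + (rr P δ 2 + rr P δ 3) / 3)) := by
    have e1 : ∀ i, 6 * (δ + 1) - 3 * (δ + 1) ^ 2 - rr P δ i = 3 * la δ (rr P δ i) := by
      intro i
      unfold la
      ring
    have e2 : ∀ i j, 2 * (δ + 1) ^ 3 - 3 * (δ + 1) ^ 2 + rr P δ i * (δ + 1) - rr P δ j =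
        lb δ (rr P δ i) (rr P δ j) := by
      intro i j
      unfold lb
      ring
    have e3 : 6 * (δ + 1) ^ 2 - 9 * (δ + 1) + rr P δ 3 + rr P δ 2 =
        3 * ((δ + 1) * (2 * δ - 1) + (rr P δ 2 + rr P δ 3) / 3) := by ring
    rw [← e1, ← e1, ← e2, ← e2, ← e3]
    simp only [P6, eval_add, eval_sub, eval_mul, eval_pow, eval_ofNat, eval_X, eval_one, eval_rho,
      eval_neg]
  rw [eval_mul, h2, h, eval_neg, eval_ofNat]
  ring

theorem hΔ_of_nonDeg {P : Par} (h : NonDeg P) (c a b : ℂ) :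
    4 * pX P ^ 3 + 27 * qX P ^ 2 ≠ C c * (C a * X + C b) ^ 12 := by
  intro he
  obtain ⟨δ, hδ⟩ := h (-c / 57395628) a b
  apply hδ
  have h1 := congrArg (eval δ) he
  simp only [eval_add, eval_mul, eval_pow, eval_ofNat, eval_C, eval_X, eval_pX, eval_qX] at h1
  linear_combination (-1 / 57395628) * h1

end Fun

end Vale.Agent.P297.H925
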